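import Vale.Agent.P042V.MultC
import Vale.Agent.P042V.Sector

/-! Global sector and total variation. -/

namespace Vale.Agent.P042W

open Polynomial Finset Vale.Agent.P042U Vale.Agent.P042V

variable {f : ℤ[X]} {σ : ℝ} {γ : ℕ → ℕ → ℤ → ℝ}

theorem MultW.del_one (f : ℤ[X]) (γ : ℕ → ℕ → ℤ → ℝ) (a : ℤ) : Del f (gl γ 1) 1 1 a = 1 := by
  unfold Del av
  simp only [mul_one, range_one, sum_singleton, gl_one, Nat.cast_one, div_one, e_int]
  simp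

theorem MultW.one_le (ζ : ℕ → ℝ) (hζ : ∀ p, 0 ≤ ζ p) (s : Finset ℕ) : 1 ≤ ∏ p ∈ s, (1 + ζ p) :=
  calc (1 : ℝ) = ∏ _p ∈ s, (1 : ℝ) := prod_const_one.symm
    _ ≤ _ := prod_le_prod (fun _ _ => zero_le_one) fun p _ => by linarith [hζ p]

theorem glob_sec (hγ : ∀ p : ℕ, p.Prime → Loc0 f σ p (γ p)) (ζ : ℕ → ℝ) (hζ : ∀ p, 0 ≤ ζ p)
    (hloc : ∀ p : ℕ, p.Prime → ∀ s : ℕ, (p : ℤ) ^ s ∣ f.coeff 0 → ∀ a : ℤ,
      Sec (ζ p) (∑ j ∈ range (s + 1), Del f (γ p j) (p ^ j) (p ^ s) a))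
    (q : ℕ) (hq : 1 ≤ q) (hf : (q : ℤ) ∣ f.coeff 0) (a : ℤ) :
    Sec (∏ p ∈ q.primeFactors, (1 + ζ p) - 1) (∑ d ∈ q.divisors, Del f (gl γ d) d q a) := by
  induction q using Nat.recOnPrimeCoprime generalizing a with
  | zero => omega
  | prime_pow p n hp =>
    rcases Nat.eq_zero_or_pos n with rfl | hn
    · simp only [pow_zero, Nat.primeFactors_one, prod_empty, sub_self, Nat.divisors_one,
        sum_singleton, MultW.del_one]
      exact ⟨1, zero_le_one, le_rfl, by simp⟩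
    · rw [Nat.primeFactors_prime_pow hn.ne' hp, prod_singleton, add_sub_cancel_left,
        Nat.sum_divisors_prime_pow hp]
      simp only [gl_pp0 hγ hp]
      exact hloc p hp n (by exact_mod_cast hf) a
  | coprime q₁ q₂ h₁ h₂ hc ih₁ ih₂ =>
    obtain ⟨u, v, huv⟩ := Nat.isCoprime_iff_coprime.2 hc
    have ha : a = (a * v) * q₂ + (a * u) * q₁ := by linear_combination (-a) * huv
    rw [Nat.cast_mul] at hf
    have s₁ := ih₁ h₁.le (dvd_of_mul_right_dvd hf) (a * v)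
    have s₂ := ih₂ h₂.le (dvd_of_mul_left_dvd hf) (a * u)
    have s := s₁.mul s₂ (sub_nonneg.mpr (MultW.one_le ζ hζ _)) (sub_nonneg.mpr (MultW.one_le ζ hζ _))
    rw [← gl_full_mul hγ h₁.le h₂.le hc, ← ha, add_sub_cancel, add_sub_cancel] at s
    rw [hc.primeFactors_mul, prod_union hc.disjoint_primeFactors]
    exact s

theorem glob_tv (hγ : ∀ p : ℕ, p.Prime → Loc0 f σ p (γ p)) (s' : ℝ) (z : ℕ → ℝ)
    (hz : ∀ p, 0 ≤ z p)
    (hloc : ∀ p : ℕ, p.Prime → ∀ s : ℕ, (p : ℤ) ^ s ∣ f.coeff 0 → ∀ a : ℤ,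
      ∑ j ∈ range (s + 1), ((p ^ j : ℕ) : ℝ) ^ s' * ‖Del f (γ p j) (p ^ j) (p ^ s) a‖ ≤ 1 + z p)
    (q : ℕ) (hq : 1 ≤ q) (hf : (q : ℤ) ∣ f.coeff 0) (a : ℤ) :
    ∑ d ∈ q.divisors, (d : ℝ) ^ s' * ‖Del f (gl γ d) d q a‖ ≤ ∏ p ∈ q.primeFactors, (1 + z p) := by
  induction q using Nat.recOnPrimeCoprime generalizing a with
  | zero => omega
  | prime_pow p n hp =>
    rcases Nat.eq_zero_or_pos n with rfl | hn
    · simp [MultW.del_one]
    · rw [Nat.primeFactors_prime_pow hn.ne' hp, prod_singleton, Nat.sum_divisors_prime_pow hp]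
      simp only [gl_pp0 hγ hp]
      exact hloc p hp n (by exact_mod_cast hf) a
  | coprime q₁ q₂ h₁ h₂ hc ih₁ ih₂ =>
    obtain ⟨a₁, a₂, ha⟩ := Del_split0 hγ h₁.le h₂.le hc a
    rw [Nat.cast_mul] at hf
    have s₁ := ih₁ h₁.le (dvd_of_mul_right_dvd hf) a₁
    have s₂ := ih₂ h₂.le (dvd_of_mul_left_dvd hf) a₂
    rw [hc.primeFactors_mul, prod_union hc.disjoint_primeFactors]
    refine le_trans (le_of_eq ?_) (mul_le_mul s₁ s₂ (sum_nonneg fun d _ => by positivity)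
      (zero_le_one.trans (MultW.one_le z hz _)))
    rw [sum_mul_sum, ← sum_product', Nat.divisors_mul, mul_def, sum_image hc.mul_injOn_divisors]
    refine sum_congr rfl fun x hx => ?_
    rw [mem_product] at hx
    rw [ha _ _ (Nat.dvd_of_mem_divisors hx.1) (Nat.dvd_of_mem_divisors hx.2), norm_mul,
      Nat.cast_mul, Real.mul_rpow (Nat.cast_nonneg _) (Nat.cast_nonneg _)]
    ring

theorem rankin (hγ : ∀ p : ℕ, p.Prime → Loc0 f σ p (γ p)) (s' : ℝ) (hs : 0 ≤ s') (q : ℕ)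
    (hq : 1 ≤ q) (Q : ℕ) (hQ : 1 ≤ Q) (a : ℤ) :
    ‖∑ d ∈ Icc 1 Q, Del f (gl γ d) d q a - ∑ d ∈ q.divisors, Del f (gl γ d) d q a‖ ≤
      (Q : ℝ) ^ (-s') * ∑ d ∈ q.divisors, (d : ℝ) ^ s' * ‖Del f (gl γ d) d q a‖ := by
  have e1 : ∑ d ∈ Icc 1 Q, Del f (gl γ d) d q a =
      ∑ d ∈ q.divisors with d ≤ Q, Del f (gl γ d) d q a := by
    symm
    refine sum_subset (fun d hd => ?_) fun d hd hn => ?_
    · rw [mem_filter] at hd
      exact mem_Icc.2 ⟨Nat.pos_of_mem_divisors hd.1, hd.2⟩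
    · rw [mem_Icc] at hd
      refine gl_van0 hγ hd.1 hq (fun hdq => hn ?_) a
      exact mem_filter.2 ⟨Nat.mem_divisors.2 ⟨hdq, by omega⟩, hd.2⟩
  rw [e1, ← sum_filter_add_sum_filter_not q.divisors (fun d => d ≤ Q), sub_add_cancel_left,
    norm_neg, mul_sum]
  have hQ0 : (0 : ℝ) < Q := by exact_mod_cast hQ
  refine (norm_sum_le _ _).trans (le_trans (sum_le_sum fun d hd => ?_)
    (sum_le_sum_of_subset_of_nonneg (filter_subset _ _) fun d _ _ => by positivity))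
  rw [mem_filter] at hd
  have h1 : (Q : ℝ) ^ s' ≤ (d : ℝ) ^ s' :=
    Real.rpow_le_rpow hQ0.le (by exact_mod_cast (not_le.1 hd.2).le) hs
  have h2 : (1 : ℝ) ≤ (Q : ℝ) ^ (-s') * (d : ℝ) ^ s' := by
    rw [Real.rpow_neg hQ0.le, inv_mul_eq_div, le_div_iff₀ (by positivity), one_mul]
    exact h1
  rw [← mul_assoc]
  exact le_mul_of_one_le_left (norm_nonneg _) h2

end Vale.Agent.P042W
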