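import Mathlib

/-! Sums over the prime divisors of an integer. -/

namespace Vale.Agent.P042W

open Polynomial Finset

/-- `1 / √(min p L)` -/
noncomputable def uu (L p : ℕ) : ℝ := 1 / √((min p L : ℕ) : ℝ)

theorem sum_log_div_sqrt : ∃ C : ℝ, 0 ≤ C ∧ ∀ L : ℕ,
    ∑ p ∈ (range (L + 1)).filter Nat.Prime, Real.log p / √(p : ℝ) ≤ C * √(L : ℝ) := by
  refine ⟨12, by norm_num, fun L => ?_⟩
  induction L using Nat.strong_induction_on with
  | _ L ih =>
  rcases Nat.eq_zero_or_pos L with rfl | hL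
  · simp [Finset.filter_singleton, Nat.not_prime_zero]
  have h1 := ih (L / 2) (by omega)
  have hLr : (0 : ℝ) < L := by exact_mod_cast hL
  have hs : 0 < √(L : ℝ) := Real.sqrt_pos.mpr hLr
  have hss : √(L : ℝ) * √(L : ℝ) = L := Real.mul_self_sqrt hLr.le
  have h2 : √((L / 2 : ℕ) : ℝ) ≤ 3 / 4 * √(L : ℝ) := by
    apply Real.sqrt_le_iff.mpr
    refine ⟨by positivity, ?_⟩
    have : ((L / 2 : ℕ) : ℝ) ≤ (L : ℝ) / 2 := Nat.cast_div_le
    nlinarith
  have hth := Chebyshev.theta_le_log4_mul_x hLr.le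
  have hl4 : Real.log 4 ≤ 2 := by
    have : Real.log 4 = 2 * Real.log 2 := by
      rw [show (4 : ℝ) = 2 ^ 2 by norm_num, Real.log_pow]; norm_num
    have := Real.log_two_lt_d9
    linarith
  rw [← Finset.sum_filter_add_sum_filter_not ((range (L + 1)).filter Nat.Prime)
    (fun p => p ≤ L / 2)]
  have e1 : ((range (L + 1)).filter Nat.Prime).filter (fun p => p ≤ L / 2)
      = (range (L / 2 + 1)).filter Nat.Prime := by
    ext p
    simp only [Finset.mem_filter, Finset.mem_range]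
    constructor
    · rintro ⟨⟨_, h⟩, h'⟩
      exact ⟨by omega, h⟩
    · rintro ⟨h, h'⟩
      exact ⟨⟨by omega, h'⟩, by omega⟩
  rw [e1]
  have h3 : ∑ p ∈ ((range (L + 1)).filter Nat.Prime).filter (fun p => ¬ p ≤ L / 2),
      Real.log p / √(p : ℝ) ≤ ∑ p ∈ ((range (L + 1)).filter Nat.Prime).filter
        (fun p => ¬ p ≤ L / 2), Real.log p * (3 / 2 / √(L : ℝ)) := by
    refine Finset.sum_le_sum fun p hp => ?_
    simp only [Finset.mem_filter, Finset.mem_range] at hp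
    have hp1 : (1 : ℝ) ≤ p := by exact_mod_cast hp.1.2.one_le
    have hp2 : (L : ℝ) ≤ 2 * p := by exact_mod_cast (show L ≤ 2 * p by omega)
    have hsp : 0 < √(p : ℝ) := Real.sqrt_pos.mpr (by linarith)
    have h4 : √(L : ℝ) ≤ 3 / 2 * √(p : ℝ) := by
      apply Real.sqrt_le_iff.mpr
      refine ⟨by positivity, ?_⟩
      have := Real.mul_self_sqrt (show (0 : ℝ) ≤ p by linarith)
      nlinarith
    rw [div_eq_mul_one_div]
    refine mul_le_mul_of_nonneg_left ?_ (Real.log_nonneg hp1)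
    rw [div_le_div_iff₀ hsp hs]
    linarith
  have h5 : ∑ p ∈ ((range (L + 1)).filter Nat.Prime).filter (fun p => ¬ p ≤ L / 2),
      Real.log p ≤ Chebyshev.theta (L : ℝ) := by
    unfold Chebyshev.theta
    refine Finset.sum_le_sum_of_subset_of_nonneg ?_ fun p _ _ => Real.log_natCast_nonneg p
    intro p hp
    simp only [Finset.mem_filter, Finset.mem_range, Nat.floor_natCast, Finset.mem_Ioc] at hp ⊢
    exact ⟨⟨hp.1.2.pos, by omega⟩, hp.1.2⟩
  rw [← Finset.sum_mul] at h3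
  have h6 : (2 * (L : ℝ)) * (3 / 2 / √(L : ℝ)) = 3 * √(L : ℝ) := by
    field_simp
    nlinarith
  have h7 : (∑ p ∈ ((range (L + 1)).filter Nat.Prime).filter (fun p => ¬ p ≤ L / 2),
      Real.log p) * (3 / 2 / √(L : ℝ)) ≤ (2 * (L : ℝ)) * (3 / 2 / √(L : ℝ)) := by
    refine mul_le_mul_of_nonneg_right ?_ (by positivity)
    nlinarith
  linarith

theorem sum_log_uu : ∃ C : ℝ, 0 ≤ C ∧ ∀ L : ℕ, 1 ≤ L → ∀ q : ℕ, 1 ≤ q →
    ∑ p ∈ q.primeFactors, Real.log p * uu L p ≤ C * √(L : ℝ) + Real.log q / √(L : ℝ) := by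
  obtain ⟨C, hC, h⟩ := sum_log_div_sqrt
  refine ⟨C, hC, fun L hL q hq => ?_⟩
  have h1 : ∑ p ∈ q.primeFactors, Real.log p * uu L p ≤ ∑ p ∈ q.primeFactors,
      ((if p ≤ L then Real.log p / √(p : ℝ) else 0) + Real.log p / √(L : ℝ)) := by
    refine Finset.sum_le_sum fun p _ => ?_
    have h0 := Real.log_natCast_nonneg p
    unfold uu
    split_ifs with hp
    · rw [min_eq_left hp, mul_one_div]
      have : 0 ≤ Real.log p / √(L : ℝ) := by positivity
      linarith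
    · rw [min_eq_right (by omega), mul_one_div, zero_add]
  rw [Finset.sum_add_distrib, ← Finset.sum_filter, ← Finset.sum_div] at h1
  have h2 : ∑ p ∈ q.primeFactors.filter (fun p => p ≤ L), Real.log p / √(p : ℝ)
      ≤ ∑ p ∈ (range (L + 1)).filter Nat.Prime, Real.log p / √(p : ℝ) := by
    refine Finset.sum_le_sum_of_subset_of_nonneg ?_ fun p _ _ =>
      div_nonneg (Real.log_natCast_nonneg p) (Real.sqrt_nonneg _)
    intro p hp
    simp only [Finset.mem_filter, Finset.mem_range] at hp ⊢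
    exact ⟨by omega, Nat.prime_of_mem_primeFactors hp.1⟩
  have h3 : ∑ p ∈ q.primeFactors, Real.log p ≤ Real.log q := by
    rw [← Real.log_prod (fun p hp => by
      exact_mod_cast (Nat.prime_of_mem_primeFactors hp).ne_zero), ← Nat.cast_prod]
    refine Real.log_le_log ?_ ?_
    · exact_mod_cast Finset.prod_pos fun p hp => (Nat.prime_of_mem_primeFactors hp).pos
    · exact_mod_cast Nat.le_of_dvd hq (Nat.prod_primeFactors_dvd q)
  have h4 := div_le_div_of_nonneg_right h3 (Real.sqrt_nonneg (L : ℝ))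
  have := h L
  linarith

theorem sum_uu (ε K : ℝ) (hε : 0 < ε) (hK : 0 ≤ K) : ∃ L₀ : ℕ, ∀ L : ℕ, L₀ ≤ L → ∀ q : ℕ, 1 ≤ q →
    Real.log q ≤ K * L → ∑ p ∈ q.primeFactors, uu L p ≤ ε * √(L : ℝ) := by
  obtain ⟨C, hC, h⟩ := sum_log_uu
  set A : ℝ := 2 * (C + K) / ε + 1 with hA
  have hA0 : 0 < A := by positivity
  set z : ℕ := ⌈Real.exp A⌉₊ with hz
  refine ⟨⌈(2 * (z + 1) / ε) ^ 2⌉₊ + 1, fun L hL q hq hK' => ?_⟩
  have hL1 : 1 ≤ L := by omega
  have hLr : (0 : ℝ) < L := by exact_mod_cast hL1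
  have hs : 0 < √(L : ℝ) := Real.sqrt_pos.mpr hLr
  have hss : √(L : ℝ) * √(L : ℝ) = L := Real.mul_self_sqrt hLr.le
  have hsz : 2 * ((z : ℝ) + 1) / ε ≤ √(L : ℝ) := by
    apply Real.le_sqrt_of_sq_le
    exact (Nat.le_ceil _).trans (Nat.cast_le.mpr (Nat.le_of_succ_le hL))
  have h1 : ∑ p ∈ q.primeFactors, uu L p ≤ ∑ p ∈ q.primeFactors,
      ((if p ≤ z then (1 : ℝ) else 0) + Real.log p * uu L p / A) := by
    refine Finset.sum_le_sum fun p hp => ?_
    have h0 := Real.log_natCast_nonneg p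
    have hp1 := (Nat.prime_of_mem_primeFactors hp).one_le
    have hu0 : 0 ≤ uu L p := by unfold uu; positivity
    split_ifs with hpz
    · have : uu L p ≤ 1 := by
        unfold uu
        have hm : (1 : ℝ) ≤ ((min p L : ℕ) : ℝ) := by exact_mod_cast le_min hp1 hL1
        have : 1 ≤ √((min p L : ℕ) : ℝ) := Real.one_le_sqrt.mpr hm
        rw [div_le_one (by linarith)]
        exact this
      have : 0 ≤ Real.log p * uu L p / A := by positivity
      linarith
    · have h2 : Real.exp A ≤ p := by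
        have : (z : ℝ) ≤ p := by exact_mod_cast (by omega)
        exact (Nat.le_ceil _).trans this
      have h3 : A ≤ Real.log p := (Real.le_log_iff_exp_le (by positivity)).mpr h2
      rw [zero_add, le_div_iff₀ hA0]
      nlinarith
  rw [Finset.sum_add_distrib, ← Finset.sum_filter, ← Finset.sum_div] at h1
  have h2 : ∑ p ∈ q.primeFactors.filter (fun p => p ≤ z), (1 : ℝ) ≤ z + 1 := by
    rw [Finset.sum_const, nsmul_eq_mul, mul_one]
    have : (q.primeFactors.filter (fun p => p ≤ z)).card ≤ (range (z + 1)).card := by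
      refine Finset.card_le_card fun p hp => ?_
      simp only [Finset.mem_filter, Finset.mem_range] at hp ⊢
      omega
    rw [Finset.card_range] at this
    exact_mod_cast this
  have h3 := h L hL1 q hq
  have h4 : Real.log q / √(L : ℝ) ≤ K * √(L : ℝ) := by
    rw [div_le_iff₀ hs]
    nlinarith
  have h5 : (∑ p ∈ q.primeFactors, Real.log p * uu L p) / A ≤ ε / 2 * √(L : ℝ) := by
    rw [div_le_iff₀ hA0]
    have : ε / 2 * √(L : ℝ) * A = (C + K) * √(L : ℝ) + ε / 2 * √(L : ℝ) := by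
      rw [hA]; field_simp
    have : 0 ≤ ε / 2 * √(L : ℝ) := by positivity
    nlinarith
  rw [div_le_iff₀ hε] at hsz
  nlinarith

theorem rpow_le_uu (I₀ : ℕ) (c : ℝ) (hc : 0 < c) : ∃ L₀ : ℕ, ∀ L : ℕ, L₀ ≤ L → ∀ p : ℕ, 1 ≤ p →
    (p : ℝ) ^ (-(1 / 2 : ℝ) + I₀ * (c / √(L : ℝ))) ≤ 2 * uu L p := by
  refine ⟨⌈((8 * (I₀ * c)) ^ 2) ^ 2⌉₊ + 1, fun L hL p hp => ?_⟩
  have hL1 : 1 ≤ L := by omega
  have hLr : (1 : ℝ) ≤ L := by exact_mod_cast hL1
  have hs : 1 ≤ √(L : ℝ) := Real.one_le_sqrt.mpr hLr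
  have ht : 1 ≤ √(√(L : ℝ)) := Real.one_le_sqrt.mpr hs
  have hb : 0 ≤ (I₀ : ℝ) * c := by positivity
  have ht2 : 8 * (I₀ * c) ≤ √(√(L : ℝ)) := by
    apply Real.le_sqrt_of_sq_le
    apply Real.le_sqrt_of_sq_le
    have h1 : ((⌈((8 * ((I₀ : ℝ) * c)) ^ 2) ^ 2⌉₊ : ℕ) : ℝ) ≤ L := by exact_mod_cast (by omega)
    exact (Nat.le_ceil _).trans h1
  have htt : √(√(L : ℝ)) * √(√(L : ℝ)) = √(L : ℝ) := Real.mul_self_sqrt (by linarith)
  have hlog : Real.log L ≤ 4 * √(√(L : ℝ)) := by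
    have h1 : Real.log (√(√(L : ℝ))) = Real.log L / 2 / 2 := by
      rw [Real.log_sqrt (by linarith), Real.log_sqrt (by linarith)]
    have h2 := Real.log_le_sub_one_of_pos (show 0 < √(√(L : ℝ)) by linarith)
    linarith
  set a : ℝ := I₀ * (c / √(L : ℝ)) with ha
  have ha0 : 0 ≤ a := by positivity
  have has : a * √(L : ℝ) = I₀ * c := by
    rw [ha]; field_simp
  set t := √(√(L : ℝ)) with htdef
  have hat : a * t ≤ 1 / 8 := by
    have : a * t * t ≤ 1 / 8 * t := by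
      rw [mul_assoc, htt, has]; linarith
    exact le_of_mul_le_mul_right this (by linarith)
  have ha2 : a ≤ 1 / 8 := by nlinarith
  have hm1 : (1 : ℝ) ≤ ((min p L : ℕ) : ℝ) := by exact_mod_cast le_min hp hL1
  have hmp : ((min p L : ℕ) : ℝ) ≤ p := by exact_mod_cast min_le_left p L
  have hmL : ((min p L : ℕ) : ℝ) ≤ L := by exact_mod_cast min_le_right p L
  unfold uu
  set m : ℝ := ((min p L : ℕ) : ℝ) with hm
  have h1 : (p : ℝ) ^ (-(1 / 2 : ℝ) + a) ≤ m ^ (-(1 / 2 : ℝ) + a) :=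
    Real.rpow_le_rpow_of_nonpos (by linarith) hmp (by linarith)
  have h2 : m ^ a ≤ 2 := by
    rw [Real.rpow_def_of_pos (by linarith)]
    apply (Real.le_log_iff_exp_le (by norm_num)).mp
    have h3 : Real.log m ≤ Real.log L := Real.log_le_log (by linarith) hmL
    have := Real.log_two_gt_d9
    nlinarith
  rw [Real.rpow_add (show 0 < m by linarith), Real.rpow_neg (show 0 ≤ m by linarith),
    ← Real.sqrt_eq_rpow] at h1
  have h4 : 0 ≤ (√m)⁻¹ := by positivity
  have h5 := mul_le_mul_of_nonneg_left h2 h4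
  rw [one_div (√m)]
  linarith

end Vale.Agent.P042W
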