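import Vale.Agent.P042W.TowW
import Vale.Agent.P042W.MultW
import Vale.Agent.P042W.PrimeS
import Vale.Agent.P042V.ArithS

/-! The arithmetic data. -/

namespace Vale.Agent.P042W

open Polynomial Finset Vale.Agent.P042U Vale.Agent.P042V

theorem arW_prod_le (s : Finset ℕ) (z : ℕ → ℝ) (hz : ∀ p, 0 ≤ z p) :
    ∏ p ∈ s, (1 + z p) ≤ Real.exp (∑ p ∈ s, z p) := by
  rw [Real.exp_sum]
  exact prod_le_prod (fun p _ => by linarith [hz p])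
    (fun p _ => by linarith [Real.add_one_le_exp (z p)])

theorem arW_exp {x : ℝ} (h0 : 0 ≤ x) (h1 : x ≤ 1) : Real.exp x - 1 ≤ 2 * x := by
  have h := Real.abs_exp_sub_one_le (x := x) (by rw [abs_of_nonneg h0]; exact h1)
  rw [abs_of_nonneg h0] at h
  exact (le_abs_self _).trans h

theorem arithWA (k K : ℕ) (c₀ : ℝ) (hc₀ : 0 < c₀) : ∃ c : ℝ, 0 < c ∧ ∃ L₀ : ℕ, ∀ L : ℕ, L₀ ≤ L →
    ∃ g : ℕ → ℤ → ℝ, ∀ f : ℤ[X], f.natDegree ≤ k →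
      (∀ q : ℕ, 1 ≤ q → q ≤ (2 ^ L) ^ K → (q : ℤ) ∣ f.coeff 0) →
      Dat f K (2 ^ L) 1 c₀ (Real.exp (-(c * √(L : ℝ)))) 0 (fun _ => 1) g := by
  obtain ⟨σ₀, hσ₀, I₀, Ct, hCt, htw⟩ := towerW k
  obtain ⟨C1, hC1, hlog⟩ := sum_log_uu
  obtain ⟨μ, hμ0, hμ1, hμ2⟩ : ∃ μ : ℝ, 0 < μ ∧ μ ≤ 1 ∧ 2 * μ ≤ c₀ :=
    ⟨min 1 (c₀ / 2), by positivity, min_le_left _ _, by linarith [min_le_right 1 (c₀ / 2)]⟩
  obtain ⟨c1, hc1, hc1'⟩ : ∃ c1 : ℝ, 0 < c1 ∧ 2 * Ct * c1 * (C1 + K) ≤ μ := by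
    refine ⟨μ / (2 * Ct * (C1 + K) + 1), by positivity, ?_⟩
    rw [show 2 * Ct * (μ / (2 * Ct * (C1 + K) + 1)) * (C1 + K) =
      μ * (2 * Ct * (C1 + K)) / (2 * Ct * (C1 + K) + 1) by ring,
      div_le_iff₀ (by positivity)]
    nlinarith
  have hl2 : 0 < Real.log 2 := Real.log_pos (by norm_num)
  have hl2' : Real.log 2 ≤ 1 := by
    have := Real.log_le_sub_one_of_pos (show (0 : ℝ) < 2 by norm_num)
    linarith
  obtain ⟨ε, hε, hε'⟩ : ∃ ε : ℝ, 0 < ε ∧ 2 * Ct * ε ≤ c1 * Real.log 2 / 4 := by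
    refine ⟨c1 * Real.log 2 / (8 * Ct + 8), by positivity, ?_⟩
    rw [← mul_div_assoc, div_le_div_iff₀ (by positivity) (by norm_num)]
    have : 0 < c1 * Real.log 2 := by positivity
    nlinarith
  obtain ⟨L₁, hL₁⟩ := rpow_le_uu I₀ c1 hc1
  obtain ⟨L₂, hL₂⟩ := sum_uu ε K hε (Nat.cast_nonneg K)
  obtain ⟨L₃, hL₃⟩ := exists_nat_ge ((c1 / σ₀) ^ 2)
  refine ⟨c1 * Real.log 2 / 4, by positivity, L₁ + L₂ + L₃ + 1, fun L hL => ?_⟩
  have hL1 : 1 ≤ L := by omega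
  have hL1' : (1 : ℝ) ≤ L := by exact_mod_cast hL1
  have hs : 0 < √(L : ℝ) := Real.sqrt_pos.2 (by linarith)
  have hss : √(L : ℝ) * √(L : ℝ) = L := Real.mul_self_sqrt (by linarith)
  obtain ⟨σ, hσ⟩ : ∃ σ : ℝ, σ = c1 / √(L : ℝ) := ⟨_, rfl⟩
  have hσ0 : 0 < σ := by rw [hσ]; positivity
  have hσs : σ * √(L : ℝ) = c1 := by rw [hσ]; field_simp
  have hσ1 : σ ≤ σ₀ := by
    have a1 : c1 / σ₀ ≤ √(L : ℝ) := by
      refine Real.le_sqrt_of_sq_le (hL₃.trans ?_)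
      exact_mod_cast (show L₃ ≤ L by omega)
    rw [div_le_iff₀ hσ₀] at a1
    rw [hσ, div_le_iff₀ hs]
    linarith
  have huu := hL₁ L (by omega)
  rw [← hσ] at huu
  have hQ1 : 1 ≤ 2 ^ L := Nat.one_le_two_pow
  refine ⟨gl (gam σ), fun f hf hq => ?_⟩
  have hloc := fun p hp => tw_gam_loc0 f σ hσ0 p hp
  have hLam : ∀ q a, Lam f (fun _ => 1) (gl (gam σ)) 1 (2 ^ L) q a =
      ∑ d ∈ Icc 1 (2 ^ L), Del f (gl (gam σ) d) d q a := fun q a => by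
    simp only [Lam, one_mul]
  refine ⟨⟨Unit, {()}, fun _ => 1, fun _ => 1, by simp, by simp, fun m => by simp [ind]⟩,
    gl_per0 hloc, gl_bd0 hloc, ?_, fun q₀ n hq0 hq1 hn a => ?_⟩
  · rw [hLam, sum_eq_single 1]
    · exact LargeS.del_one f _ 0
    · intro d hd hd1
      exact gl_van0 hloc (mem_Icc.mp hd).1 le_rfl (by simpa using hd1) 0
    · intro h1
      exact absurd (mem_Icc.mpr ⟨le_rfl, hQ1⟩) h1
  obtain rfl : n = 1 := Nat.dvd_one.1 hn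
  rw [one_pow, mul_one, hLam]
  have hdv := hq q₀ hq0 hq1
  have hlq : Real.log q₀ ≤ K * L := by
    have a1 : (q₀ : ℝ) ≤ ((2 : ℝ) ^ L) ^ K := by exact_mod_cast hq1
    have a2 : (0 : ℝ) < q₀ := by exact_mod_cast hq0
    refine (Real.log_le_log a2 a1).trans ?_
    rw [Real.log_pow, Real.log_pow]
    have : (L : ℝ) * Real.log 2 ≤ L := by nlinarith
    exact mul_le_mul_of_nonneg_left this (Nat.cast_nonneg K)
  obtain ⟨z, hz⟩ : ∃ z : ℕ → ℝ, ∀ p, z p = Ct * (p : ℝ) ^ (-(1 / 2 : ℝ) + I₀ * σ) :=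
    ⟨_, fun _ => rfl⟩
  have hz0 : ∀ p, 0 ≤ z p := fun p => by rw [hz]; positivity
  have hzu : ∀ p ∈ q₀.primeFactors, z p ≤ 2 * Ct * uu L p := fun p hp => by
    rw [hz]
    have := mul_le_mul_of_nonneg_left (huu p (Nat.prime_of_mem_primeFactors hp).pos) hCt
    linarith
  have hlp : ∀ p : ℕ, 0 ≤ Real.log p := fun p => Real.log_natCast_nonneg p
  have hS := glob_sec hloc (fun p => σ * Real.log p * z p)
    (fun p => mul_nonneg (mul_nonneg hσ0.le (hlp p)) (hz0 p))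
    (fun p hp s hs a => by rw [hz]; exact (htw σ hσ0 hσ1 f hf p hp s hs a).1) q₀ hq0 hdv a
  have hT := glob_tv hloc (σ / 2) z hz0
    (fun p hp s hs a => by rw [hz]; exact (htw σ hσ0 hσ1 f hf p hp s hs a).2) q₀ hq0 hdv a
  have hR := rankin hloc (σ / 2) (by positivity) q₀ hq0 (2 ^ L) hQ1 a
  have hsum1 : ∑ p ∈ q₀.primeFactors, σ * Real.log p * z p ≤ μ := by
    have a1 : ∑ p ∈ q₀.primeFactors, σ * Real.log p * z p ≤
        2 * Ct * σ * ∑ p ∈ q₀.primeFactors, Real.log p * uu L p := by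
      rw [mul_sum]
      refine sum_le_sum fun p hp => ?_
      have := mul_le_mul_of_nonneg_left (hzu p hp) (mul_nonneg hσ0.le (hlp p))
      linarith
    have a2 := hlog L hL1 q₀ hq0
    have a3 : Real.log q₀ / √(L : ℝ) ≤ K * √(L : ℝ) := by
      rw [div_le_iff₀ hs, mul_assoc, hss]; exact hlq
    have a4 : 2 * Ct * σ * ∑ p ∈ q₀.primeFactors, Real.log p * uu L p ≤
        2 * Ct * σ * ((C1 + K) * √(L : ℝ)) :=
      mul_le_mul_of_nonneg_left (by linarith) (by positivity)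
    have a5 : 2 * Ct * σ * ((C1 + K) * √(L : ℝ)) = 2 * Ct * c1 * (C1 + K) := by
      rw [← hσs]; ring
    linarith
  have hsum0 : 0 ≤ ∑ p ∈ q₀.primeFactors, σ * Real.log p * z p :=
    sum_nonneg fun p _ => mul_nonneg (mul_nonneg hσ0.le (hlp p)) (hz0 p)
  have hS' : Sec c₀ (∑ d ∈ q₀.divisors, Del f (gl (gam σ) d) d q₀ a) := by
    refine hS.mono ?_
    have a1 := arW_prod_le q₀.primeFactors (fun p => σ * Real.log p * z p)
      (fun p => mul_nonneg (mul_nonneg hσ0.le (hlp p)) (hz0 p))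
    have a2 := arW_exp hsum0 (hsum1.trans hμ1)
    linarith
  have hsum2 : ∑ p ∈ q₀.primeFactors, z p ≤ c1 * Real.log 2 / 4 * √(L : ℝ) := by
    have a1 : ∑ p ∈ q₀.primeFactors, z p ≤ 2 * Ct * ∑ p ∈ q₀.primeFactors, uu L p := by
      rw [mul_sum]
      exact sum_le_sum hzu
    have a2 := mul_le_mul_of_nonneg_left (hL₂ L (by omega) q₀ hq0 hlq)
      (show 0 ≤ 2 * Ct by positivity)
    have a3 := mul_le_mul_of_nonneg_right hε' hs.le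
    nlinarith
  have hQ : ((2 ^ L : ℕ) : ℝ) ^ (-(σ / 2)) = Real.exp (-(c1 * Real.log 2 / 2 * √(L : ℝ))) := by
    rw [Real.rpow_def_of_pos (by positivity)]
    congr 1
    push_cast
    rw [Real.log_pow, ← hσs]
    nth_rewrite 1 [← hss]
    ring
  have hfin : ‖∑ d ∈ Icc 1 (2 ^ L), Del f (gl (gam σ) d) d q₀ a -
      ∑ d ∈ q₀.divisors, Del f (gl (gam σ) d) d q₀ a‖ ≤
      Real.exp (-(c1 * Real.log 2 / 4 * √(L : ℝ))) := by
    refine hR.trans ?_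
    rw [hQ]
    refine (mul_le_mul_of_nonneg_left ((hT.trans (arW_prod_le _ z hz0)).trans
      (Real.exp_le_exp.2 hsum2)) (Real.exp_pos _).le).trans (le_of_eq ?_)
    rw [← Real.exp_add]
    congr 1
    ring
  obtain ⟨t, ht0, ht1, ht⟩ := hS'
  refine ⟨t, ht0, ht1, ?_⟩
  have := norm_sub_le_norm_sub_add_norm_sub (∑ d ∈ Icc 1 (2 ^ L), Del f (gl (gam σ) d) d q₀ a)
    (∑ d ∈ q₀.divisors, Del f (gl (gam σ) d) d q₀ a) (t : ℂ)
  linarith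

theorem arithW (h : ℤ[X]) (hint : ∀ q : ℕ, 1 ≤ q → ∃ t : ℤ, (q : ℤ) ∣ h.eval t) (K : ℕ)
    (c₀ : ℝ) (hc₀ : 0 < c₀) : ∃ c : ℝ, 0 < c ∧ ∃ L₀ : ℕ, ∀ L : ℕ, L₀ ≤ L →
    ∃ (ρ : ℤ) (B : ℤ → ℝ) (g : ℕ → ℤ → ℝ),
      Dat h K (2 ^ L) 1 c₀ (Real.exp (-(c * √(L : ℝ)))) ρ B g := by
  obtain ⟨c, hc, L₀, H⟩ := arithWA h.natDegree K c₀ hc₀
  refine ⟨c, hc, L₀, fun L hL => ?_⟩
  obtain ⟨g, H⟩ := H L hL
  obtain ⟨ρ, hρ⟩ := hint ((2 ^ L) ^ K).factorial (Nat.factorial_pos _)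
  refine ⟨ρ, _, _, Dat.shift ρ (H _ ?_ fun q hq hq' => ?_)⟩
  · rw [natDegree_comp, natDegree_X_add_C, mul_one]
  · rw [coeff_zero_eq_eval_zero, eval_comp, eval_add, eval_X, eval_C, zero_add]
    exact (Int.natCast_dvd_natCast.2 (Nat.dvd_factorial hq hq')).trans hρ

end Vale.Agent.P042W
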