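import Vale.Agent.P042W.WeilPP
import Vale.Agent.P042V.Tower
import Vale.Agent.P042V.Sector

/-! Towers with the Weil bound. -/

namespace Vale.Agent.P042W

open Polynomial Finset Vale.Agent.P042U Vale.Agent.P042V

theorem tower_JW (k : ℕ) : ∃ η : ℝ, 0 < η ∧ ∃ Cw : ℝ, 0 ≤ Cw ∧ ∀ f : ℤ[X], f.natDegree ≤ k →
    ∀ p : ℕ, p.Prime → ∀ s : ℕ, (p : ℤ) ^ s ∣ f.coeff 0 → ∀ a : ℤ, ∃ J : ℕ, J ≤ s ∧
      (∀ j, J ≤ j → thj f p s a j = 1) ∧
      ∀ j, j < J → ‖thj f p s a j‖ ≤ 2 * ((p : ℝ) ^ (-η)) ^ (J - j) ∧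
        ‖thj f p s a j‖ ≤ Cw / √(p : ℝ) := by
  classical
  obtain ⟨η, hη, H⟩ := hua_pp k
  obtain ⟨Cw, hCw, HW⟩ := weil_pp k
  refine ⟨η, hη, Cw, hCw, fun f hf p hp s h0 a => ?_⟩
  have hz : ∀ j : ℕ, (p : ℤ) ^ s ∣ a * f.coeff 0 * (p : ℤ) ^ (j * 0) := fun j =>
    (h0.mul_left a).mul_right _
  have hs : ∀ l, (p : ℤ) ^ s ∣ a * f.coeff l * (p : ℤ) ^ (s * l) := by
    intro l
    rcases Nat.eq_zero_or_pos l with rfl | hl
    · exact hz s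
    · exact Dvd.dvd.mul_left (pow_dvd_pow _ (Nat.le_mul_of_pos_right s hl)) _
  have hex : ∃ j : ℕ, ∀ l, (p : ℤ) ^ s ∣ a * f.coeff l * (p : ℤ) ^ (j * l) := ⟨s, hs⟩
  refine ⟨Nat.find hex, Nat.find_min' hex hs, fun j hj => ?_, fun j hj => ⟨?_, ?_⟩⟩
  · refine th_eq_one _ _ (Nat.pos_of_ne_zero (pow_ne_zero _ hp.ne_zero)) fun l => ?_
    rw [tw_coeff]; push_cast
    exact (Nat.find_spec hex l).trans
      (mul_dvd_mul_left _ (pow_dvd_pow _ (Nat.mul_le_mul_right l hj)))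
  · have h1 := Nat.find_min hex (m := Nat.find hex - 1) (by omega)
    push Not at h1
    obtain ⟨l, hl⟩ := h1
    have hl1 : 1 ≤ l := by
      rcases Nat.eq_zero_or_pos l with rfl | h
      · exact absurd (hz _) hl
      · exact h
    obtain ⟨i, hi⟩ : ∃ i, Nat.find hex = j + i + 1 := ⟨Nat.find hex - j - 1, by omega⟩
    have h2 := H (C a * f.comp (C ((p ^ j : ℕ) : ℤ) * X)) ((tw_deg f _ a).trans hf) p hp s i l hl1
      (fun hd => hl (hd.trans (by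
        rw [tw_coeff, hi, Nat.add_sub_cancel, mul_left_comm, ← pow_add]
        refine mul_dvd_mul_left _ (pow_dvd_pow _ ?_)
        have := Nat.le_mul_of_pos_right i hl1
        rw [add_mul]; omega)))
    have e1 : Nat.find hex - j = i + 1 := by omega
    rw [e1]; exact h2
  · have h1 := Nat.find_min hex hj
    push Not at h1
    obtain ⟨l, hl⟩ := h1
    have hl1 : 1 ≤ l := by
      rcases Nat.eq_zero_or_pos l with rfl | h
      · exact absurd (hz _) hl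
      · exact h
    exact HW (C a * f.comp (C ((p ^ j : ℕ) : ℤ) * X)) ((tw_deg f _ a).trans hf) p hp s l hl1
      (by rw [tw_coeff]; exact hl)

theorem towW_term {η Cw σ p ρ b : ℝ} {I₀ i : ℕ} (hη : 0 < η) (hCw : 0 ≤ Cw) (hσ : 0 < σ)
    (hση : σ ≤ η / 2) (hp : 2 ≤ p) (hI : 1 ≤ η * I₀) (hρ : ρ = (2 : ℝ) ^ (-(η / 2)))
    (h1 : b ≤ 2 * (p ^ (-η)) ^ i) (h2 : b ≤ Cw / √p) :
    p ^ (σ * i) * b ≤ (Cw + 2) / ρ ^ I₀ * ρ ^ i * p ^ (-(1 / 2 : ℝ) + I₀ * σ) := by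
  have p0 : 0 < p := by linarith
  have p1 : 1 ≤ p := by linarith
  have ρ0 : 0 < ρ := by rw [hρ]; positivity
  have ρ1 : ρ ≤ 1 := by
    rw [hρ]; exact Real.rpow_le_one_of_one_le_of_nonpos (by norm_num) (by linarith)
  have P0 : 0 < p ^ (-(1 / 2 : ℝ) + I₀ * σ) := Real.rpow_pos_of_pos p0 _
  have u0 : 0 < p ^ (σ * i) := Real.rpow_pos_of_pos p0 _
  have r0 : 0 < ρ ^ I₀ := pow_pos ρ0 _
  rcases le_total i I₀ with hi | hi
  · have a1 : p ^ (σ * i) * (Cw / √p) ≤ Cw * p ^ (-(1 / 2 : ℝ) + I₀ * σ) := by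
      have e1 : Cw / √p = Cw * p ^ (-(1 / 2 : ℝ)) := by
        rw [Real.sqrt_eq_rpow, Real.rpow_neg p0.le, div_eq_mul_inv]
      rw [e1, mul_left_comm, ← Real.rpow_add p0]
      refine mul_le_mul_of_nonneg_left (Real.rpow_le_rpow_of_exponent_le p1 ?_) hCw
      have : (i : ℝ) ≤ I₀ := by exact_mod_cast hi
      nlinarith
    have a2 : Cw ≤ (Cw + 2) / ρ ^ I₀ * ρ ^ i := by
      rw [div_mul_eq_mul_div, le_div_iff₀ r0]
      have := pow_le_pow_of_le_one ρ0.le ρ1 hi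
      nlinarith
    exact (mul_le_mul_of_nonneg_left h2 u0.le).trans
      (a1.trans (mul_le_mul_of_nonneg_right a2 P0.le))
  · obtain ⟨m, rfl⟩ := Nat.exists_eq_add_of_le hi
    have a1 : p ^ (σ * ((I₀ + m : ℕ) : ℝ)) * (p ^ (-η)) ^ (I₀ + m) ≤
        (p ^ (-(η / 2))) ^ m * p ^ (-(1 / 2 : ℝ) + I₀ * σ) := by
      rw [← Real.rpow_mul_natCast p0.le, ← Real.rpow_mul_natCast p0.le, ← Real.rpow_add p0,
        ← Real.rpow_add p0]
      refine Real.rpow_le_rpow_of_exponent_le p1 ?_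
      push_cast
      have m0 : (0 : ℝ) ≤ m := Nat.cast_nonneg _
      nlinarith
    have a2 : (p ^ (-(η / 2))) ^ m ≤ ρ ^ m := by
      refine pow_le_pow_left₀ (by positivity) ?_ m
      rw [hρ]
      exact Real.rpow_le_rpow_of_nonpos (by norm_num) hp (by linarith)
    have a3 : 2 * ρ ^ m ≤ (Cw + 2) / ρ ^ I₀ * ρ ^ (I₀ + m) := by
      rw [pow_add, ← mul_assoc, div_mul_cancel₀ _ r0.ne']
      exact mul_le_mul_of_nonneg_right (by linarith) (pow_pos ρ0 _).le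
    calc _ ≤ p ^ (σ * ((I₀ + m : ℕ) : ℝ)) * (2 * (p ^ (-η)) ^ (I₀ + m)) :=
          mul_le_mul_of_nonneg_left h1 u0.le
      _ = 2 * (p ^ (σ * ((I₀ + m : ℕ) : ℝ)) * (p ^ (-η)) ^ (I₀ + m)) := by ring
      _ ≤ 2 * (ρ ^ m * p ^ (-(1 / 2 : ℝ) + I₀ * σ)) :=
          mul_le_mul_of_nonneg_left (a1.trans (mul_le_mul_of_nonneg_right a2 P0.le)) (by norm_num)
      _ = 2 * ρ ^ m * p ^ (-(1 / 2 : ℝ) + I₀ * σ) := by ring
      _ ≤ _ := mul_le_mul_of_nonneg_right a3 P0.le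

/-- the weighted sum of a tower -/
theorem tower_Z (η Cw : ℝ) (hη : 0 < η) (hCw : 0 ≤ Cw) : ∃ I₀ : ℕ, ∃ C : ℝ, 0 ≤ C ∧ ∀ σ : ℝ, 0 < σ →
    σ ≤ η / 2 → ∀ p : ℝ, 2 ≤ p → ∀ (b : ℕ → ℝ) (J : ℕ),
    (∀ j, j < J → b j ≤ 2 * (p ^ (-η)) ^ (J - j) ∧ b j ≤ Cw / √p) →
    ∑ j ∈ range J, (p ^ (-σ)) ^ j * b j ≤ (p ^ (-σ)) ^ J * (C * p ^ (-(1 / 2 : ℝ) + I₀ * σ)) := by
  obtain ⟨ρ, hρ⟩ : ∃ ρ : ℝ, ρ = (2 : ℝ) ^ (-(η / 2)) := ⟨_, rfl⟩
  have ρ0 : 0 < ρ := by rw [hρ]; positivity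
  have ρ1 : ρ < 1 := by
    rw [hρ]; exact Real.rpow_lt_one_of_one_lt_of_neg (by norm_num) (by linarith)
  obtain ⟨I₀, hI₀⟩ := exists_nat_ge (1 / η)
  have hI : 1 ≤ η * I₀ := by
    rw [div_le_iff₀ hη] at hI₀; linarith
  have d0 : 0 < 1 - ρ := by linarith
  obtain ⟨D, hD⟩ : ∃ D : ℝ, D = (Cw + 2) / ρ ^ I₀ := ⟨_, rfl⟩
  have D0 : 0 ≤ D := by rw [hD]; positivity
  refine ⟨I₀, D / (1 - ρ), by positivity, fun σ hσ hση p hp b J hb => ?_⟩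
  have p0 : 0 < p := by linarith
  obtain ⟨P, hP⟩ : ∃ P : ℝ, P = p ^ (-(1 / 2 : ℝ) + I₀ * σ) := ⟨_, rfl⟩
  have P0 : 0 < P := by rw [hP]; exact Real.rpow_pos_of_pos p0 _
  have τ0 : 0 < p ^ (-σ) := Real.rpow_pos_of_pos p0 _
  have key : ∀ j ∈ range J, (p ^ (-σ)) ^ j * b j ≤
      (p ^ (-σ)) ^ J * (D * P) * (1 ^ j * ρ ^ (J - j)) := by
    intro j hj
    have hj' := mem_range.1 hj
    have h1 := towW_term hη hCw hσ hση hp hI hρ (hb j hj').1 (hb j hj').2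
    rw [← hD, ← hP] at h1
    have e1 : (p ^ (-σ)) ^ j = (p ^ (-σ)) ^ J * p ^ (σ * ((J - j : ℕ) : ℝ)) := by
      rw [← Real.rpow_mul_natCast p0.le, ← Real.rpow_mul_natCast p0.le, ← Real.rpow_add p0,
        Nat.cast_sub hj'.le]
      congr 1; ring
    rw [e1, mul_assoc]
    refine (mul_le_mul_of_nonneg_left h1 (pow_pos τ0 J).le).trans (le_of_eq ?_)
    ring
  refine (sum_le_sum key).trans ?_
  rw [← mul_sum, ← hP]
  have h3 := tw_geom (τ := 1) ρ0.le J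
  have h4 : ∑ j ∈ range J, (1 : ℝ) ^ j * ρ ^ (J - j) ≤ 1 / (1 - ρ) := by
    rw [le_div_iff₀ d0, mul_comm, h3, one_pow]
    have := pow_pos ρ0 (J + 1)
    linarith
  refine (mul_le_mul_of_nonneg_left h4 (by positivity)).trans (le_of_eq ?_)
  ring

theorem towW_var (θ : ℕ → ℂ) (n : ℕ) :
    ‖θ 0‖ + ∑ j ∈ range n, ‖θ (j + 1) - θ j‖ ≤ ‖θ n‖ + 2 * ∑ j ∈ range n, ‖θ j‖ := by
  induction n with
  | zero => simp
  | succ n ih =>
    rw [sum_range_succ, sum_range_succ]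
    have := norm_sub_le (θ (n + 1)) (θ n)
    linarith

theorem towerW (k : ℕ) : ∃ σ₀ : ℝ, 0 < σ₀ ∧ ∃ I₀ : ℕ, ∃ C : ℝ, 0 ≤ C ∧ ∀ σ : ℝ, 0 < σ → σ ≤ σ₀ →
    ∀ f : ℤ[X], f.natDegree ≤ k → ∀ p : ℕ, p.Prime → ∀ s : ℕ, (p : ℤ) ^ s ∣ f.coeff 0 → ∀ a : ℤ,
    Sec (σ * Real.log p * (C * (p : ℝ) ^ (-(1 / 2 : ℝ) + I₀ * σ)))
        (∑ j ∈ range (s + 1), Del f (gam σ p j) (p ^ j) (p ^ s) a) ∧
      ∑ j ∈ range (s + 1), ((p ^ j : ℕ) : ℝ) ^ (σ / 2) * ‖Del f (gam σ p j) (p ^ j) (p ^ s) a‖ ≤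
        1 + C * (p : ℝ) ^ (-(1 / 2 : ℝ) + I₀ * σ) := by
  obtain ⟨η, hη, Cw, hCw, H⟩ := tower_JW k
  obtain ⟨I₀, C, hC, HZ⟩ := tower_Z η Cw hη hCw
  refine ⟨η / 2, by positivity, I₀, 2 * C, by positivity, fun σ hσ hση f hf p hp s h0 a => ?_⟩
  obtain ⟨J, hJs, hJ, hlt⟩ := H f hf p hp s h0 a
  have p2 : (2 : ℝ) ≤ p := by exact_mod_cast hp.two_le
  have p0 : (0 : ℝ) < p := by linarith
  have hZ := HZ σ hσ hση p p2 (fun j => ‖thj f p s a j‖) J hlt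
  obtain ⟨P, hP⟩ : ∃ P : ℝ, P = (p : ℝ) ^ (-(1 / 2 : ℝ) + I₀ * σ) := ⟨_, rfl⟩
  have P0 : 0 < P := by rw [hP]; exact Real.rpow_pos_of_pos p0 _
  rw [← hP] at hZ ⊢
  have hτ1 : (p : ℝ) ^ (-σ) ≤ 1 :=
    Real.rpow_le_one_of_one_le_of_nonpos (by linarith) (by linarith)
  have hτl : 1 - (p : ℝ) ^ (-σ) ≤ σ * Real.log p := by
    rw [Real.rpow_def_of_pos p0]
    have := Real.add_one_le_exp (Real.log p * -σ)
    linarith
  have hτ0 : 0 < (p : ℝ) ^ (-σ) := Real.rpow_pos_of_pos p0 _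
  constructor
  · rw [sum_Del_gam f p hp]
    generalize (p : ℝ) ^ (-σ) = τ at hZ hτ1 hτl hτ0
    have e1 : ∀ n, J ≤ n → ((1 - τ : ℝ) : ℂ) * ∑ j ∈ range n, (τ : ℂ) ^ j * thj f p s a j +
        (τ : ℂ) ^ n * thj f p s a n =
        ((1 - τ : ℝ) : ℂ) * ∑ j ∈ range J, (τ : ℂ) ^ j * thj f p s a j + (τ : ℂ) ^ J := by
      intro n hn
      induction n, hn using Nat.le_induction with
      | base => rw [hJ J le_rfl, mul_one]
      | succ n hn ih =>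
        rw [← ih, sum_range_succ, hJ n hn, hJ (n + 1) (by omega)]
        push_cast; ring
    refine ⟨τ ^ J, (pow_pos hτ0 J).le, pow_le_one₀ hτ0.le hτ1, ?_⟩
    rw [e1 s hJs, Complex.ofReal_pow, add_sub_cancel_right, norm_mul, Complex.norm_real,
      Real.norm_eq_abs, abs_of_nonneg (by linarith : 0 ≤ 1 - τ)]
    have h1 : ‖∑ j ∈ range J, (τ : ℂ) ^ j * thj f p s a j‖ ≤ τ ^ J * (C * P) := by
      refine (norm_sum_le _ _).trans (le_trans (le_of_eq ?_) hZ)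
      refine sum_congr rfl fun j _ => ?_
      rw [norm_mul, norm_pow, Complex.norm_real, Real.norm_eq_abs, abs_of_pos hτ0]
    have h2 : 0 ≤ τ ^ J * (C * P) := by positivity
    calc _ ≤ (σ * Real.log p) * (τ ^ J * (C * P)) :=
          mul_le_mul hτl h1 (norm_nonneg _) (by linarith)
      _ ≤ (σ * Real.log p) * (2 * (τ ^ J * (C * P))) :=
          mul_le_mul_of_nonneg_left (by linarith) (by linarith)
      _ = _ := by ring
  · have h1 : ∑ j ∈ range J, ‖thj f p s a j‖ ≤ C * P := by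
      refine le_of_mul_le_mul_left (le_trans ?_ hZ) (pow_pos hτ0 J)
      rw [mul_sum]
      refine sum_le_sum fun j hj => mul_le_mul_of_nonneg_right ?_ (norm_nonneg _)
      exact pow_le_pow_of_le_one hτ0.le hτ1 (mem_range.1 hj).le
    have h2 := towW_var (thj f p s a) J
    rw [hJ J le_rfl, norm_one] at h2
    have h3 : ∑ j ∈ range s, ‖thj f p s a (j + 1) - thj f p s a j‖ =
        ∑ j ∈ range J, ‖thj f p s a (j + 1) - thj f p s a j‖ := by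
      symm
      refine sum_subset (range_subset_range.2 hJs) fun j _ hj => ?_
      have hj' : J ≤ j := not_lt.1 fun h => hj (mem_range.2 h)
      rw [hJ j hj', hJ (j + 1) (by omega), sub_self, norm_zero]
    have h4 : ∀ j ∈ range s, ((p ^ (j + 1) : ℕ) : ℝ) ^ (σ / 2) *
        ‖Del f (gam σ p (j + 1)) (p ^ (j + 1)) (p ^ s) a‖ ≤
        ‖thj f p s a (j + 1) - thj f p s a j‖ := by
      intro j _
      rw [tw_Del_gam f p hp, norm_mul, norm_pow, Complex.norm_real, Real.norm_eq_abs,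
        abs_of_pos hτ0, ← mul_assoc]
      refine mul_le_of_le_one_left (norm_nonneg _) ?_
      rw [Nat.cast_pow, ← Real.rpow_pow_comm p0.le, ← mul_pow, ← Real.rpow_add p0]
      exact pow_le_one₀ (by positivity)
        (Real.rpow_le_one_of_one_le_of_nonpos (by linarith) (by linarith))
    rw [sum_range_succ', tw_gam_zero, tw_Del_ind f p hp 0 0 s le_rfl]
    have h5 := sum_le_sum h4
    simp only [pow_zero, Nat.cast_one, Real.one_rpow, one_mul]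
    linarith

end Vale.Agent.P042W
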