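import Vale.Agent.P042W.WDefs

/-! The number of zeros is at most the pole order. -/

namespace Vale.Agent.P042W

open Polynomial Finset

variable {F R : Type} [Field F] [CommRing R] [Algebra F R] {Fil : ℕ → Submodule F R} {g : ℕ}

theorem Filt.le (h : Filt F R Fil g) {m n : ℕ} (hmn : m ≤ n) : Fil m ≤ Fil n :=
  monotone_nat_of_le_succ h.mono hmn

theorem Filt.exists_exact (h : Filt F R Fil g) {u : R} (hu : u ≠ 0) :
    ∃ m, u ∈ Fil (m + 1) ∧ u ∉ Fil m := by
  obtain ⟨n, hn⟩ := h.exh u
  induction n with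
  | zero => rw [h.zero] at hn; exact absurd hn hu
  | succ n ih =>
    by_cases h1 : u ∈ Fil n
    · exact ih h1
    · exact ⟨n, hn, h1⟩

theorem Filt.finrank_le (h : Filt F R Fil g) (m n : ℕ) :
    Module.finrank F (Fil (m + n)) ≤ Module.finrank F (Fil m) + n := by
  induction n with
  | zero => simp
  | succ n ih => have := h.step (m + n); rw [← add_assoc]; omega

theorem wa_interp (S : Finset (R →ₐ[F] F)) (χ : R →ₐ[F] F) :
    ∃ r : R, χ r = 1 ∧ ∀ χ' ∈ S, χ' ≠ χ → χ' r = 0 := by
  classical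
  induction S using Finset.induction_on with
  | empty => exact ⟨1, map_one _, by simp⟩
  | insert ψ S _ ih =>
    obtain ⟨r, h1, h2⟩ := ih
    by_cases hψ : ψ = χ
    · refine ⟨r, h1, fun χ' h3 h4 => ?_⟩
      rcases mem_insert.1 h3 with rfl | h3
      · exact absurd hψ h4
      · exact h2 χ' h3 h4
    · obtain ⟨x, hx⟩ : ∃ x, χ x ≠ ψ x := by
        by_contra hc
        push Not at hc
        exact hψ (AlgHom.ext fun x => (hc x).symm)
      refine ⟨(χ x - ψ x)⁻¹ • ((x - algebraMap F R (ψ x)) * r), ?_, fun χ' h3 h4 => ?_⟩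
      · simp [h1, sub_ne_zero.2 hx]
      · rcases mem_insert.1 h3 with rfl | h3
        · simp
        · simp [h2 χ' h3 h4]

theorem Filt.zeros (h : Filt F R Fil g) (S : Finset (R →ₐ[F] F)) {u : R} {m : ℕ} (hu : u ≠ 0)
    (hm : u ∈ Fil (m + 1)) (hS : ∀ χ ∈ S, χ u = 0) : S.card ≤ m := by
  classical
  obtain ⟨m', hm1, hm2⟩ := h.exists_exact hu
  have hm' : m' ≤ m := by
    by_contra hc
    exact hm2 (h.le (by omega) hm)
  choose r hr1 hr2 using wa_interp S
  choose N hN using h.exh
  set M := S.sup fun χ => N (r χ) with hM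
  have := h.fin (M + 1 + m')
  have := h.fin (M + 1)
  let E : Fil (M + 1 + m') →ₗ[F] (S → F) :=
    LinearMap.pi fun χ => χ.1.toLinearMap ∘ₗ (Fil (M + 1 + m')).subtype
  have hE : LinearMap.range E = ⊤ := by
    rw [eq_top_iff, ← (Pi.basisFun F S).span_eq, Submodule.span_le]
    rintro _ ⟨χ, rfl⟩
    have h1 : N (r χ) ≤ M := Finset.le_sup (f := fun χ => N (r χ)) χ.2
    refine ⟨⟨r χ, h.le (by omega) (hN _)⟩, ?_⟩
    funext χ'
    by_cases hχ : χ' = χ
    · subst hχ
      simp [E, hr1]
    · have := hr2 χ χ' χ'.2 fun e => hχ (Subtype.ext e)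
      simp [E, this, hχ]
  have hmem : ∀ w : Fil (M + 1), u * w ∈ Fil (M + 1 + m') := fun w => by
    have := h.mul m' M u w hm1 w.2
    rwa [show m' + M + 1 = M + 1 + m' by ring] at this
  let T : Fil (M + 1) →ₗ[F] LinearMap.ker E :=
    { toFun := fun w => ⟨⟨u * w, hmem w⟩, by
        funext χ
        simp [E, hS χ χ.2]⟩
      map_add' := fun a b => by ext; simp [mul_add]
      map_smul' := fun c a => by ext; simp }
  have hT : Function.Injective T := by
    rw [injective_iff_map_eq_zero]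
    intro w hw
    by_contra hw0
    obtain ⟨n, hn1, hn2⟩ := h.exists_exact (u := w) fun e => hw0 (Subtype.ext e)
    have h1 : u * w = 0 := congrArg (fun x : LinearMap.ker E => (x.1 : R)) hw
    exact h.exact m' n u w hm1 hm2 hn1 hn2 (h1 ▸ Submodule.zero_mem _)
  have h1 := LinearMap.finrank_le_finrank_of_injective hT
  have h2 := LinearMap.finrank_range_add_finrank_ker E
  rw [hE, finrank_top, Module.finrank_fintype_fun_eq_card, Fintype.card_coe] at h2
  have h3 := h.finrank_le (M + 1) m'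
  omega

end Vale.Agent.P042W
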