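import Vale.Agent.P042W.WA

/-! The argument of Stepanov and Bombieri. -/

namespace Vale.Agent.P042W

open Polynomial Finset

variable {F R : Type} [Field F] [CommRing R] [Algebra F R] {Fil : ℕ → Submodule F R} {g : ℕ}

/-- elements with distinct exact orders below `m` -/
theorem Filt.exists_orders (h : Filt F R Fil g) (m : ℕ) : ∃ (T : Finset ℕ) (s : ℕ → R),
    Module.finrank F (Fil m) ≤ T.card ∧ ∀ i ∈ T, i < m ∧ s i ∈ Fil (i + 1) ∧ s i ∉ Fil i := by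
  induction m with
  | zero => exact ⟨∅, fun _ => 0, by rw [h.zero]; simp, by simp⟩
  | succ m ih =>
    obtain ⟨T, s, h1, h2⟩ := ih
    by_cases hle : Fil (m + 1) ≤ Fil m
    · have := h.fin m
      exact ⟨T, s, (Submodule.finrank_mono hle).trans h1, fun i hi =>
        ⟨(h2 i hi).1.trans (Nat.lt_succ_self m), (h2 i hi).2⟩⟩
    · obtain ⟨u, hu1, hu2⟩ := SetLike.not_le_iff_exists.mp hle
      have hm : m ∉ T := fun hm => lt_irrefl m (h2 m hm).1
      refine ⟨insert m T, Function.update s m u, ?_, fun i hi => ?_⟩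
      · rw [card_insert_of_notMem hm]
        exact (h.step m).trans (Nat.succ_le_succ h1)
      · rcases mem_insert.mp hi with rfl | hi
        · rw [Function.update_self]
          exact ⟨Nat.lt_succ_self _, hu1, hu2⟩
        · rw [Function.update_of_ne (h2 i hi).1.ne]
          exact ⟨(h2 i hi).1.trans (Nat.lt_succ_self m), (h2 i hi).2⟩

theorem Filt.wb_pow (h : Filt F R Fil g) {u : R} {m : ℕ} (hu : u ∈ Fil (m + 1)) (e : ℕ) :
    u ^ (e + 1) ∈ Fil (m * (e + 1) + 1) := by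
  induction e with
  | zero => simpa using hu
  | succ e ih =>
    rw [pow_succ, mul_add m (e + 1), mul_one]
    exact h.mul _ _ _ _ ih hu

theorem Filt.wb_pow_not (h : Filt F R Fil g) {u : R} {m : ℕ} (hu : u ∈ Fil (m + 1))
    (hu' : u ∉ Fil m) (e : ℕ) : u ^ (e + 1) ∉ Fil (m * (e + 1)) := by
  induction e with
  | zero => simpa using hu'
  | succ e ih =>
    rw [pow_succ, mul_add m (e + 1), mul_one]
    exact h.exact _ _ _ _ (h.wb_pow hu e) ih hu hu'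

theorem Filt.wb_sum_ne (h : Filt F R Fil g) {ι : Type} (s : Finset ι) (hs : s.Nonempty)
    (t : ι → R) (o : ι → ℕ) (ho : ∀ i ∈ s, t i ∈ Fil (o i + 1) ∧ t i ∉ Fil (o i))
    (hinj : ∀ i ∈ s, ∀ j ∈ s, o i = o j → i = j) : ∑ i ∈ s, t i ≠ 0 := by
  classical
  obtain ⟨i₀, hi₀, hmax⟩ := s.exists_max_image o hs
  intro h0
  rw [← Finset.add_sum_erase s t hi₀] at h0
  apply (ho i₀ hi₀).2
  rw [eq_neg_of_add_eq_zero_left h0]
  refine neg_mem (Submodule.sum_mem _ fun i hi => ?_)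
  obtain ⟨hne, hi'⟩ := mem_erase.mp hi
  have h1 := hmax i hi'
  have h2 : o i ≠ o i₀ := fun e => hne (hinj i hi' i₀ hi₀ e)
  exact h.le (by omega) (ho i hi').1

theorem Filt.wb_main (h : Filt F R Fil g) (Q : ℕ) (hg : g ^ 2 + 3 * g + 1 < Q + 1) :
    ∃ (T : Finset ℕ) (s : ℕ → R) (f : T → R),
      ∑ i : T, s i ^ (Q + 1) * f i = 0 ∧ ∑ i : T, s i * f i ^ (Q + 1) ≠ 0 ∧
      ∑ i : T, s i * f i ^ (Q + 1) ∈ Fil (Q + (Q + 1 + 2 * g) * (Q + 1) + 1) := by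
  classical
  obtain ⟨T, s, hT, hs⟩ := h.exists_orders (Q + 1)
  have hsQ : ∀ i : T, s i ∈ Fil (Q + 1) := fun i =>
    h.le (Nat.succ_le_of_lt (hs i i.2).1) (hs i i.2).2.1
  let δ₀ : (T → Fil (Q + 1 + 2 * g + 1)) →ₗ[F] R :=
    ∑ i : T, LinearMap.mulLeft F (s i ^ (Q + 1)) ∘ₗ (Fil (Q + 1 + 2 * g + 1)).subtype ∘ₗ
      LinearMap.proj i
  have hδ₀ : ∀ f, δ₀ f = ∑ i : T, s i ^ (Q + 1) * (f i : R) := fun f => by
    simp [δ₀, LinearMap.sum_apply]
  let δ : (T → Fil (Q + 1 + 2 * g + 1)) →ₗ[F] Fil (Q * (Q + 1) + (Q + 1 + 2 * g) + 1) :=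
    δ₀.codRestrict _ fun f => by
      rw [hδ₀]
      exact Submodule.sum_mem _ fun i _ => h.mul _ _ _ _ (h.wb_pow (hsQ i) Q) (f i).2
  have := h.fin (Q + 1 + 2 * g + 1)
  have := h.fin (Q * (Q + 1) + (Q + 1 + 2 * g) + 1)
  have hker : LinearMap.ker δ ≠ ⊥ := by
    refine LinearMap.ker_ne_bot_of_finrank_lt ?_
    have a1 := h.finrank_le 0 (Q * (Q + 1) + (Q + 1 + 2 * g) + 1)
    rw [h.zero, finrank_bot, zero_add] at a1
    rw [Module.finrank_pi_fintype, Finset.sum_const, Finset.card_univ, Fintype.card_coe,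
      smul_eq_mul]
    have a2 := h.low (Q + 1)
    have a3 := h.low (Q + 1 + 2 * g + 1)
    obtain ⟨c, hc⟩ : ∃ c, Q + 1 = g + c := ⟨Q + 1 - g, by omega⟩
    have a4 : c * (Q + 1 + g + 1) ≤ T.card * Module.finrank F (Fil (Q + 1 + 2 * g + 1)) :=
      Nat.mul_le_mul (by omega) (by omega)
    refine lt_of_le_of_lt a1 (lt_of_lt_of_le ?_ a4)
    have a5 : (c : ℤ) = Q + 1 - g := by omega
    zify at hg ⊢
    rw [a5]
    nlinarith
  obtain ⟨f, hf, hf0⟩ := Submodule.exists_mem_ne_zero_of_ne_bot hker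
  refine ⟨T, s, fun i => f i, ?_, ?_, ?_⟩
  · rw [← hδ₀]
    exact congrArg Subtype.val (LinearMap.mem_ker.mp hf)
  · show ∑ i : T, s i * (f i : R) ^ (Q + 1) ≠ 0
    rw [← Finset.sum_filter_of_ne (p := fun i => (f i : R) ≠ 0) fun i _ hi h0 => hi (by
      rw [h0, zero_pow (Nat.succ_ne_zero Q), mul_zero])]
    have hex : ∀ i : T, ∃ m, (f i : R) ≠ 0 → (f i : R) ∈ Fil (m + 1) ∧ (f i : R) ∉ Fil m := by
      intro i
      by_cases hi : (f i : R) = 0
      · exact ⟨0, fun h0 => absurd hi h0⟩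
      · obtain ⟨m, hm⟩ := h.exists_exact hi
        exact ⟨m, fun _ => hm⟩
    choose n hn using hex
    refine h.wb_sum_ne _ ?_ _ (fun i => i + n i * (Q + 1)) (fun i hi => ?_) fun i _ j _ e => ?_
    · obtain ⟨i, hi⟩ := Function.ne_iff.mp hf0
      exact ⟨i, mem_filter.mpr ⟨mem_univ _, fun h0 => hi (Subtype.ext h0)⟩⟩
    · obtain ⟨b1, b2⟩ := hn i (mem_filter.mp hi).2
      exact ⟨h.mul _ _ _ _ (hs i i.2).2.1 (h.wb_pow b1 Q),
        h.exact _ _ _ _ (hs i i.2).2.1 (hs i i.2).2.2 (h.wb_pow b1 Q) (h.wb_pow_not b1 b2 Q)⟩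
    · have e' := congrArg (· % (Q + 1)) e
      simp only [Nat.add_mul_mod_self_right] at e'
      rw [Nat.mod_eq_of_lt (hs i i.2).1, Nat.mod_eq_of_lt (hs j j.2).1] at e'
      exact Subtype.ext e'
  · exact Submodule.sum_mem _ fun i _ => h.mul _ _ _ _ (hsQ i) (h.wb_pow (f i).2 Q)

theorem Filt.bombieri [Fintype F] (h : Filt F R Fil g) (p κ : ℕ) [Fact p.Prime] [CharP F p]
    (hq : Fintype.card F = (p ^ κ) ^ 2) (hg : g ^ 2 + 3 * g + 1 < p ^ κ)
    (S : Finset (R →ₐ[F] F)) : S.card ≤ (p ^ κ) ^ 2 + (2 * g + 1) * p ^ κ := by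
  obtain ⟨Q, hQ⟩ : ∃ Q, p ^ κ = Q + 1 := ⟨p ^ κ - 1, by omega⟩
  obtain ⟨T, s, f, h1, h2, h3⟩ := h.wb_main Q (hQ ▸ hg)
  have h4 := h.zeros S h2 h3 fun χ _ => by
    refine pow_eq_zero_iff (n := p ^ κ) (by omega) |>.mp ?_
    have h5 := congrArg χ h1
    rw [map_zero, map_sum] at h5
    rw [map_sum, sum_pow_char_pow, ← h5]
    refine Finset.sum_congr rfl fun i _ => ?_
    rw [map_mul, map_mul, map_pow, map_pow, mul_pow, ← pow_mul, ← hQ, ← sq, ← hq,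
      FiniteField.pow_card]
  rw [hQ]
  refine h4.trans ?_
  nlinarith

end Vale.Agent.P042W
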