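import Vale.Agent.P042W.WDefs

/-! The coordinate ring of an Artin-Schreier curve. -/

namespace Vale.Agent.P042W

open Polynomial Finset

/-- the equation `Y ^ p - Y - f` over `F[X]` -/
noncomputable def asP {F : Type} [Field F] (p : ℕ) (f : F[X]) : F[X][X] := X ^ p - X - C f

theorem wc_filt {F R ι : Type} [Field F] [CommRing R] [Algebra F R] (b : Module.Basis ι F R)
    (wt : ι → ℕ) (hinj : Function.Injective wt) (g : ℕ) (hg : ∀ w, g ≤ w → ∃ i, wt i = w)
    (hM : ∀ a c, ∃ e, ∃ k : F, k ≠ 0 ∧ wt e = wt a + wt c ∧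
      b a * b c - k • b e ∈ Submodule.span F (b '' {i | wt i < wt a + wt c})) :
    Filt F R (fun m => Submodule.span F (b '' {i | wt i < m})) g := by
  classical
  have hmono : ∀ {m n : ℕ}, m ≤ n → Submodule.span F (b '' {i | wt i < m}) ≤
      Submodule.span F (b '' {i | wt i < n}) := fun h =>
    Submodule.span_mono (Set.image_mono fun i hi => lt_of_lt_of_le hi h)
  have hb : ∀ (i : ι) (m : ℕ), b i ∈ Submodule.span F (b '' {i | wt i < m}) ↔ wt i < m :=
    fun i m => b.self_mem_span_image
  have hzero : Submodule.span F (b '' {i | wt i < 0}) = ⊥ := by simp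
  have hmul : ∀ m n u w, u ∈ Submodule.span F (b '' {i | wt i < m + 1}) →
      w ∈ Submodule.span F (b '' {i | wt i < n + 1}) →
      u * w ∈ Submodule.span F (b '' {i | wt i < m + n + 1}) := by
    intro m n u w hu hw
    induction hu using Submodule.span_induction with
    | zero => rw [zero_mul]; exact zero_mem _
    | add x y _ _ h1 h2 => rw [add_mul]; exact add_mem h1 h2
    | smul k x _ h1 => rw [smul_mul_assoc]; exact Submodule.smul_mem _ _ h1
    | mem x hx =>
      obtain ⟨a, ha, rfl⟩ := hx
      induction hw using Submodule.span_induction with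
      | zero => rw [mul_zero]; exact zero_mem _
      | add x y _ _ h1 h2 => rw [mul_add]; exact add_mem h1 h2
      | smul k x _ h1 => rw [mul_smul_comm]; exact Submodule.smul_mem _ _ h1
      | mem x hx =>
        obtain ⟨c, hc, rfl⟩ := hx
        obtain ⟨e, k, -, he, h⟩ := hM a c
        have ha' : wt a < m + 1 := ha
        have hc' : wt c < n + 1 := hc
        rw [← sub_add_cancel (b a * b c) (k • b e)]
        exact add_mem (hmono (by omega) h) (Submodule.smul_mem _ _ ((hb e _).2 (by omega)))
  have hmul' : ∀ m n u w, u ∈ Submodule.span F (b '' {i | wt i < m}) →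
      w ∈ Submodule.span F (b '' {i | wt i < n + 1}) →
      u * w ∈ Submodule.span F (b '' {i | wt i < m + n}) := by
    intro m n u w hu hw
    cases m with
    | zero =>
      rw [hzero, Submodule.mem_bot] at hu
      rw [hu, zero_mul]; exact zero_mem _
    | succ m => exact hmono (by omega) (hmul m n u w hu hw)
  have hlead : ∀ m u, u ∈ Submodule.span F (b '' {i | wt i < m + 1}) →
      u ∉ Submodule.span F (b '' {i | wt i < m}) → ∃ a, ∃ k : F, k ≠ 0 ∧ wt a = m ∧
        u - k • b a ∈ Submodule.span F (b '' {i | wt i < m}) := by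
    intro m u h1 h2
    rw [b.mem_span_image] at h1 h2
    obtain ⟨a, ha, ha'⟩ := Set.not_subset.1 h2
    have a1 : wt a < m + 1 := h1 ha
    have a2 : ¬ wt a < m := ha'
    refine ⟨a, b.repr u a, Finsupp.mem_support_iff.1 ha, by omega, ?_⟩
    rw [b.mem_span_image]
    intro i hi
    have hi' := Finsupp.mem_support_iff.1 hi
    by_cases hia : i = a
    · subst hia
      simp at hi'
    · have a3 : b.repr u i ≠ 0 := by
        simpa [Finsupp.single_apply, Ne.symm hia] using hi'
      have a4 : wt i < m + 1 := h1 (Finsupp.mem_support_iff.2 a3)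
      have a5 : wt i ≠ wt a := fun h => hia (hinj h)
      change wt i < m
      omega
  have hfin : ∀ m, {i | wt i < m}.Finite := fun m =>
    Set.Finite.preimage (f := wt) hinj.injOn (Set.finite_lt_nat m)
  have hrank : ∀ m, Module.finrank F (Submodule.span F (b '' {i | wt i < m})) =
      ((range m).filter fun w => ∃ i, wt i = w).card := by
    intro m
    haveI := (hfin m).fintype
    rw [Set.image_eq_range,
      finrank_span_eq_card (b := fun x : {i | wt i < m} => b x)
        (b.linearIndependent.comp (fun x : {i | wt i < m} => (x : ι)) Subtype.val_injective),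
      ← card_univ]
    refine card_bij (fun x _ => wt x) ?_ ?_ ?_
    · exact fun x _ => mem_filter.2 ⟨mem_range.2 x.2, x, rfl⟩
    · exact fun x _ y _ h => Subtype.ext (hinj h)
    · intro w hw
      obtain ⟨h1, i, rfl⟩ := mem_filter.1 hw
      exact ⟨⟨i, mem_range.1 h1⟩, mem_univ _, rfl⟩
  refine ⟨hzero, fun m => hmono (Nat.le_succ m), fun u => ?_, hmul, ?_,
    fun m => Module.Finite.span_of_finite F ((hfin m).image b), fun m => ?_, fun m => ?_⟩
  · refine ⟨(b.repr u).support.sup wt + 1, b.mem_span_image.2 fun i hi => ?_⟩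
    exact Nat.lt_succ_of_le (le_sup (f := wt) hi)
  · intro m n u w hu hu' hw hw' huw
    obtain ⟨a, k₁, hk₁, rfl, h₁⟩ := hlead m u hu hu'
    obtain ⟨c, k₂, hk₂, rfl, h₂⟩ := hlead n w hw hw'
    obtain ⟨e, k, hk, he, h⟩ := hM a c
    have e1 : (k₁ * k₂ * k) • b e = u * w - (u - k₁ • b a) * w -
        k₁ • ((w - k₂ • b c) * b a) - (k₁ * k₂) • (b a * b c - k • b e) := by
      simp only [Algebra.smul_def, map_mul]
      ring
    have h3 : (k₁ * k₂ * k) • b e ∈ Submodule.span F (b '' {i | wt i < wt a + wt c}) := by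
      rw [e1]
      refine sub_mem (sub_mem (sub_mem huw (hmul' _ _ _ _ h₁ hw)) (Submodule.smul_mem _ _ ?_))
        (Submodule.smul_mem _ _ h)
      rw [add_comm]
      exact hmul' _ _ _ _ h₂ ((hb a _).2 (Nat.lt_succ_self _))
    rw [Submodule.smul_mem_iff _ (mul_ne_zero (mul_ne_zero hk₁ hk₂) hk), hb] at h3
    omega
  · rw [hrank, hrank, range_add_one, filter_insert]
    split_ifs
    · exact card_insert_le _ _
    · exact Nat.le_succ _
  · rw [hrank]
    have h1 : Ico g m ⊆ (range m).filter fun w => ∃ i, wt i = w := fun w hw =>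
      mem_filter.2 ⟨mem_range.2 (mem_Ico.1 hw).2, hg w (mem_Ico.1 hw).1⟩
    have h2 := card_le_card h1
    rw [Nat.card_Ico] at h2
    omega

theorem as_filt {F : Type} [Field F] (p : ℕ) (hp : p.Prime) (f : F[X]) (hd : 1 ≤ f.natDegree)
    (hc : Nat.Coprime f.natDegree p) :
    ∃ Fil : ℕ → Submodule F (AdjoinRoot (asP p f)),
      Filt F (AdjoinRoot (asP p f)) Fil (p * f.natDegree) := by
  have hp2 := hp.two_le
  have hlt : (X + C f : F[X][X]).degree < (p : ℕ) := by
    rw [degree_X_add_C]
    exact_mod_cast hp.one_lt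
  have has : asP p f = X ^ p - (X + C f) := by rw [asP, sub_sub]
  have hmon : (asP p f).Monic := by rw [has]; exact monic_X_pow_sub hlt
  have hdeg : (asP p f).natDegree = p := by
    rw [has]
    refine natDegree_eq_of_degree_eq_some ?_
    rw [degree_sub_eq_left_of_degree_lt (by rwa [degree_X_pow]), degree_X_pow]
  set x : AdjoinRoot (asP p f) := AdjoinRoot.of (asP p f) X with hx
  set y : AdjoinRoot (asP p f) := AdjoinRoot.root (asP p f) with hy
  obtain ⟨b, hb⟩ : ∃ b : Module.Basis (ℕ × Fin p) F (AdjoinRoot (asP p f)),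
      ∀ e, b e = x ^ e.1 * y ^ (e.2 : ℕ) := by
    refine ⟨(basisMonomials F).smulTower
      ((AdjoinRoot.powerBasis' hmon).basis.reindex (finCongr hdeg)), fun e => ?_⟩
    rw [Module.Basis.smulTower_apply, Module.Basis.reindex_apply, PowerBasis.basis_eq_pow,
      coe_basisMonomials, Algebra.smul_def, AdjoinRoot.algebraMap_eq, hx, ← map_pow,
      X_pow_eq_monomial]
    rfl
  have hyp : y ^ p = y + ∑ l ∈ range (f.natDegree + 1), f.coeff l • x ^ l := by
    have h1 := AdjoinRoot.eval₂_root (asP p f)
    have h2 : AdjoinRoot.of (asP p f) f = ∑ l ∈ range (f.natDegree + 1), f.coeff l • x ^ l := by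
      conv_lhs => rw [show AdjoinRoot.of (asP p f) f = AdjoinRoot.of (asP p f)
        (∑ l ∈ range (f.natDegree + 1), C (f.coeff l) * X ^ l) from
          congrArg _ (as_sum_range_C_mul_X_pow f)]
      rw [map_sum]
      refine sum_congr rfl fun l _ => ?_
      rw [map_mul, map_pow, Algebra.smul_def, AdjoinRoot.algebraMap_eq']
      rfl
    rw [← h2]
    have h3 : eval₂ (AdjoinRoot.of (asP p f)) y (X ^ p - X - C f) = 0 := h1
    rw [eval₂_sub, eval₂_sub, eval₂_X_pow, eval₂_X, eval₂_C] at h3
    linear_combination h3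
  refine ⟨_, wc_filt b (fun e => p * e.1 + f.natDegree * e.2) ?_ _ ?_ ?_⟩
  · rintro ⟨i, j⟩ ⟨i', j'⟩ h
    simp only at h
    have h1 : f.natDegree * j ≡ f.natDegree * j' [MOD p] := by
      have := congrArg (· % p) h
      simpa [Nat.ModEq] using this
    have h2 : (j : ℕ) = j' :=
      Nat.ModEq.eq_of_lt_of_lt (Nat.ModEq.cancel_left_of_coprime hc.symm h1) j.2 j'.2
    rw [h2] at h
    exact Prod.ext (Nat.eq_of_mul_eq_mul_left hp.pos (Nat.add_right_cancel h)) (Fin.ext h2)
  · intro w hw
    haveI := Fact.mk hp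
    have h0 : ((f.natDegree : ℕ) : ZMod p) ≠ 0 := by
      rw [Ne, ZMod.natCast_eq_zero_iff]
      exact (Nat.Prime.coprime_iff_not_dvd hp).1 hc.symm
    have hj := ZMod.val_lt ((w : ZMod p) / (f.natDegree : ZMod p))
    have h1 : f.natDegree * ((w : ZMod p) / (f.natDegree : ZMod p)).val ≡ w [MOD p] := by
      rw [← ZMod.natCast_eq_natCast_iff, Nat.cast_mul, ZMod.natCast_zmod_val,
        mul_div_cancel₀ _ h0]
    have h2 : f.natDegree * ((w : ZMod p) / (f.natDegree : ZMod p)).val ≤ w := by nlinarith
    obtain ⟨i, hi⟩ := (Nat.modEq_iff_dvd' h2).1 h1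
    refine ⟨(i, ⟨_, hj⟩), ?_⟩
    simp only
    omega
  · rintro ⟨i, j⟩ ⟨i', j'⟩
    by_cases hjj : (j : ℕ) + j' < p
    · refine ⟨(i + i', ⟨_, hjj⟩), 1, one_ne_zero, by simp only; ring, ?_⟩
      rw [hb, hb, hb, one_smul, show x ^ i * y ^ (j : ℕ) * (x ^ i' * y ^ (j' : ℕ)) -
        x ^ (i + i') * y ^ ((j : ℕ) + j') = 0 by ring]
      exact zero_mem _
    · obtain ⟨r, hr⟩ := Nat.exists_eq_add_of_le (not_lt.1 hjj)
      have hr1 : r + 1 < p := by have := j.2; have := j'.2; omega
      have hw : p * i + f.natDegree * j + (p * i' + f.natDegree * j') =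
          p * (i + i') + f.natDegree * p + f.natDegree * r := by
        rw [add_assoc (p * (i + i')), ← mul_add f.natDegree p, ← hr]; ring
      have hf0 : f ≠ 0 := by rintro rfl; simp at hd
      refine ⟨(i + i' + f.natDegree, ⟨r, by omega⟩), f.coeff f.natDegree,
        leadingCoeff_ne_zero.2 hf0, by simp only; rw [hw]; ring, ?_⟩
      have e1 : b (i, j) * b (i', j') -
          f.coeff f.natDegree • b (i + i' + f.natDegree, ⟨r, by omega⟩) =
          b (i + i', ⟨r + 1, hr1⟩) +
            ∑ l ∈ range f.natDegree, f.coeff l • b (i + i' + l, ⟨r, by omega⟩) := by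
        simp only [hb]
        have e2 : x ^ i * y ^ (j : ℕ) * (x ^ i' * y ^ (j' : ℕ)) = x ^ (i + i') * y ^ r * y ^ p := by
          rw [mul_assoc (x ^ (i + i')), ← pow_add y, add_comm r, ← hr]; ring
        rw [e2, hyp, sum_range_succ, mul_add, mul_add, mul_sum]
        have e3 : ∀ l, x ^ (i + i') * y ^ r * f.coeff l • x ^ l =
            f.coeff l • (x ^ (i + i' + l) * y ^ r) := fun l => by
          rw [mul_smul_comm]; congr 1; ring
        simp only [e3]
        ring
      rw [e1]
      simp only [hw]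
      refine add_mem (b.self_mem_span_image.2 ?_)
        (sum_mem fun l hl => Submodule.smul_mem _ _ (b.self_mem_span_image.2 ?_))
      · change p * (i + i') + f.natDegree * (r + 1) < _
        nlinarith
      · change p * (i + i' + l) + f.natDegree * r < _
        have := mem_range.1 hl
        nlinarith

end Vale.Agent.P042W
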