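import Vale.Agent.P042W.WB
import Vale.Agent.P042W.WC

/-! Point counts and exponential sums over fields of square order. -/

namespace Vale.Agent.P042W

open Polynomial Finset

open Classical in
theorem as_count {F : Type} [Field F] [Fintype F] (p κ : ℕ) [Fact p.Prime] [CharP F p]
    (hq : Fintype.card F = (p ^ κ) ^ 2) (f : F[X]) (hd : 1 ≤ f.natDegree)
    (hc : Nat.Coprime f.natDegree p)
    (hg : (p * f.natDegree) ^ 2 + 3 * (p * f.natDegree) + 1 < p ^ κ) :
    (univ.filter (fun z : F × F => z.2 ^ p - z.2 = f.eval z.1)).card ≤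
      (p ^ κ) ^ 2 + (2 * (p * f.natDegree) + 1) * p ^ κ := by
  obtain ⟨Fil, hF⟩ := as_filt p (Fact.out : p.Prime) f hd hc
  set T := univ.filter (fun z : F × F => z.2 ^ p - z.2 = f.eval z.1) with hT
  have key : ∀ z : T, (asP p f).eval₂ (Polynomial.aeval z.1.1 : F[X] →ₐ[F] F) z.1.2 = 0 := by
    intro z
    have hz := (mem_filter.1 z.2).2
    simp only [asP, eval₂_sub, eval₂_X_pow, eval₂_X, eval₂_C, RingHom.coe_coe, coe_aeval_eq_eval]
    rw [hz, sub_self]
  let χ : T → (AdjoinRoot (asP p f) →ₐ[F] F) := fun z =>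
    AdjoinRoot.liftAlgHom (asP p f) (Polynomial.aeval z.1.1) z.1.2 (key z)
  have hinj : Function.Injective χ := by
    intro z w h
    have h1 : χ z (AdjoinRoot.of (asP p f) X) = χ w (AdjoinRoot.of (asP p f) X) := by rw [h]
    have h2 : χ z (AdjoinRoot.root (asP p f)) = χ w (AdjoinRoot.root (asP p f)) := by rw [h]
    simp only [χ, AdjoinRoot.liftAlgHom_of, AdjoinRoot.liftAlgHom_root, aeval_X] at h1 h2
    exact Subtype.ext (Prod.ext h1 h2)
  have hb := hF.bombieri p κ hq hg (univ.image χ)
  rwa [card_image_of_injective _ hinj, card_univ, Fintype.card_coe] at hb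

open Classical in
theorem card_as_fiber {F : Type} [Field F] [Fintype F] (p : ℕ) [Fact p.Prime]
    [Algebra (ZMod p) F] (a : F) (ha : Algebra.trace (ZMod p) F a = 0) :
    p ≤ (univ.filter (fun y : F => y ^ p - y = a)).card := by
  have : CharP F p := charP_of_injective_algebraMap (algebraMap (ZMod p) F).injective p
  let σ : F ≃ₐ[ZMod p] F := FiniteField.frobeniusAlgEquivOfAlgebraic (ZMod p) F
  have hσ : ∀ y, σ y = y ^ p := by
    intro y
    simp only [σ, FiniteField.coe_frobeniusAlgEquivOfAlgebraic, ZMod.card]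
  let φ : F →ₗ[ZMod p] F := σ.toLinearMap - LinearMap.id
  have hφ : ∀ y, φ y = y ^ p - y := by
    intro y
    simp [φ, hσ]
  have hker : LinearMap.ker φ ≤ Submodule.span (ZMod p) {(1 : F)} := by
    intro y hy
    rw [LinearMap.mem_ker, hφ, sub_eq_zero, ← Subfield.mem_bot_iff_pow_eq_self F p,
      mem_bot_iff_intCast p F] at hy
    obtain ⟨n, rfl⟩ := hy
    rw [Submodule.mem_span_singleton]
    exact ⟨(n : ZMod p), by rw [Algebra.smul_def, mul_one, map_intCast]⟩
  have hk1 : Module.finrank (ZMod p) (LinearMap.ker φ) ≤ 1 := by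
    refine (Submodule.finrank_mono hker).trans ?_
    rw [finrank_span_singleton one_ne_zero]
  have hrange : LinearMap.range φ ≤ LinearMap.ker (Algebra.trace (ZMod p) F) := by
    rintro _ ⟨y, rfl⟩
    rw [LinearMap.mem_ker, hφ, map_sub, ← hσ, Algebra.trace_eq_of_algEquiv, sub_self]
  have h1 := LinearMap.finrank_range_add_finrank_ker φ
  have h2 := LinearMap.finrank_range_add_finrank_ker (Algebra.trace (ZMod p) F)
  rw [LinearMap.range_eq_top.2 (Algebra.trace_surjective (ZMod p) F), finrank_top,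
    Module.finrank_self] at h2
  have heq : LinearMap.range φ = LinearMap.ker (Algebra.trace (ZMod p) F) :=
    Submodule.eq_of_le_of_finrank_le hrange (by omega)
  have hmem : a ∈ LinearMap.range φ := by rw [heq]; exact ha
  obtain ⟨y0, hy0⟩ := hmem
  have hinj : Function.Injective (fun c : ZMod p => y0 + algebraMap (ZMod p) F c) := by
    intro c d h
    exact (algebraMap (ZMod p) F).injective (add_left_cancel h)
  calc p = (univ.image (fun c : ZMod p => y0 + algebraMap (ZMod p) F c)).card := by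
        rw [card_image_of_injective _ hinj, card_univ, ZMod.card]
    _ ≤ _ := by
        apply card_le_card
        intro y hy
        obtain ⟨c, -, rfl⟩ := mem_image.1 hy
        rw [mem_filter]
        refine ⟨mem_univ _, ?_⟩
        rw [← hφ, map_add, hy0, hφ, ← map_pow, ZMod.pow_card, sub_self, add_zero]

open Classical in
theorem trace_count {F : Type} [Field F] [Fintype F] (p κ : ℕ) [Fact p.Prime]
    [Algebra (ZMod p) F] (hq : Fintype.card F = (p ^ κ) ^ 2) (f : F[X]) (hd : 1 ≤ f.natDegree)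
    (hc : Nat.Coprime f.natDegree p)
    (hg : (p * f.natDegree) ^ 2 + 3 * (p * f.natDegree) + 1 < p ^ κ) (t : ZMod p) :
    p * (univ.filter (fun x : F => Algebra.trace (ZMod p) F (f.eval x) = t)).card ≤
      (p ^ κ) ^ 2 + (2 * (p * f.natDegree) + 1) * p ^ κ := by
  have : CharP F p := charP_of_injective_algebraMap (algebraMap (ZMod p) F).injective p
  obtain ⟨c, hc'⟩ := Algebra.trace_surjective (ZMod p) F t
  have hdeg : (f - C c).natDegree = f.natDegree := natDegree_sub_C
  have h := as_count p κ hq (f - C c) (by rwa [hdeg]) (by rwa [hdeg]) (by rwa [hdeg])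
  rw [hdeg] at h
  refine le_trans ?_ h
  set T := univ.filter (fun x : F => Algebra.trace (ZMod p) F (f.eval x) = t) with hT
  calc p * T.card = ∑ _x ∈ T, p := by rw [sum_const, smul_eq_mul, mul_comm]
    _ ≤ ∑ x ∈ T, (univ.filter (fun y : F => y ^ p - y = (f - C c).eval x)).card := by
        refine sum_le_sum fun x hx => card_as_fiber p _ ?_
        rw [eval_sub, eval_C, map_sub, (mem_filter.1 hx).2, hc', sub_self]
    _ ≤ ∑ x : F, (univ.filter (fun y : F => y ^ p - y = (f - C c).eval x)).card :=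
        sum_le_sum_of_subset (subset_univ _)
    _ = _ := by
        simp only [card_filter]
        rw [← univ_product_univ, sum_product]

theorem sum_sq_field {F : Type} [Field F] [Fintype F] (p κ : ℕ) [Fact p.Prime]
    [Algebra (ZMod p) F] (hq : Fintype.card F = (p ^ κ) ^ 2) (f : F[X]) (hd : 1 ≤ f.natDegree)
    (hc : Nat.Coprime f.natDegree p)
    (hg : (p * f.natDegree) ^ 2 + 3 * (p * f.natDegree) + 1 < p ^ κ) :
    ‖∑ x : F, ZMod.stdAddChar (Algebra.trace (ZMod p) F (f.eval x))‖ ≤
      2 * (2 * (p * f.natDegree) + 1) * (p : ℝ) ^ κ := by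
  classical
  have hp : p.Prime := Fact.out
  have hp0 : (0 : ℝ) < p := by exact_mod_cast hp.pos
  set n : ZMod p → ℕ := fun t =>
    (univ.filter (fun x : F => Algebra.trace (ZMod p) F (f.eval x) = t)).card with hn
  set A : ℝ := (2 * (p * f.natDegree) + 1) * (p : ℝ) ^ κ with hA
  set Q : ℝ := ((p : ℝ) ^ κ) ^ 2 with hQ
  have hA0 : 0 ≤ A := by positivity
  have hb : ∀ t, (n t : ℝ) ≤ (Q + A) / p := by
    intro t
    rw [le_div_iff₀ hp0, mul_comm]
    have := trace_count p κ hq f hd hc hg t
    have h2 : ((p * n t : ℕ) : ℝ) ≤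
        (((p ^ κ) ^ 2 + (2 * (p * f.natDegree) + 1) * p ^ κ : ℕ) : ℝ) := by
      exact_mod_cast (by convert this)
    push_cast at h2
    exact h2
  have hsum : ∑ t, (n t : ℝ) = Q := by
    have := card_eq_sum_card_fiberwise (s := (univ : Finset F)) (t := (univ : Finset (ZMod p)))
      (f := fun x : F => Algebra.trace (ZMod p) F (f.eval x)) (fun _ _ => mem_univ _)
    rw [card_univ, hq] at this
    rw [hQ]
    exact_mod_cast this.symm
  have hψ : ∑ t : ZMod p, ZMod.stdAddChar t = 0 := by
    apply AddChar.sum_eq_zero_of_ne_one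
    intro h
    have h1 : ZMod.stdAddChar (1 : ZMod p) = ZMod.stdAddChar (0 : ZMod p) := by rw [h]; rfl
    exact one_ne_zero (ZMod.injective_stdAddChar h1)
  have hre : ∑ x : F, ZMod.stdAddChar (Algebra.trace (ZMod p) F (f.eval x)) =
      ∑ t : ZMod p, (((n t : ℝ) - (Q + A) / p : ℝ) : ℂ) * ZMod.stdAddChar t := by
    rw [← sum_fiberwise (s := univ) (g := fun x : F => Algebra.trace (ZMod p) F (f.eval x))]
    simp only [Complex.ofReal_sub, sub_mul, sum_sub_distrib, ← mul_sum, hψ, mul_zero, sub_zero]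
    refine sum_congr rfl fun t _ => ?_
    rw [sum_congr rfl (g := fun _ => ZMod.stdAddChar t)
      (fun x hx => by rw [(mem_filter.1 hx).2]), sum_const, nsmul_eq_mul]
    simp [hn]
  rw [hre]
  calc _ ≤ ∑ t : ZMod p, ‖(((n t : ℝ) - (Q + A) / p : ℝ) : ℂ) * ZMod.stdAddChar t‖ :=
        norm_sum_le _ _
    _ = ∑ t : ZMod p, ((Q + A) / p - n t) := by
        refine sum_congr rfl fun t _ => ?_
        rw [norm_mul, AddChar.norm_apply, mul_one, Complex.norm_real, Real.norm_eq_abs,
          abs_sub_comm, abs_of_nonneg (sub_nonneg.2 (hb t))]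
    _ = A := by
        rw [sum_sub_distrib, hsum, sum_const, card_univ, ZMod.card, nsmul_eq_mul]
        field_simp
        ring
    _ ≤ _ := by
        rw [mul_assoc, ← hA]
        linarith

end Vale.Agent.P042W
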