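import Mathlib

/-! Definitions for the Weil bound. -/

namespace Vale.Agent.P042W

open Polynomial Finset

/-- a filtration of an algebra by pole order: `Fil m` is the space of elements of order `< m` -/
structure Filt (F R : Type) [Field F] [CommRing R] [Algebra F R] (Fil : ℕ → Submodule F R)
    (g : ℕ) : Prop where
  zero : Fil 0 = ⊥
  mono : ∀ m, Fil m ≤ Fil (m + 1)
  exh : ∀ u, ∃ m, u ∈ Fil m
  mul : ∀ m n u w, u ∈ Fil (m + 1) → w ∈ Fil (n + 1) → u * w ∈ Fil (m + n + 1)
  exact : ∀ m n u w, u ∈ Fil (m + 1) → u ∉ Fil m → w ∈ Fil (n + 1) → w ∉ Fil n →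
    u * w ∉ Fil (m + n)
  fin : ∀ m, Module.Finite F (Fil m)
  step : ∀ m, Module.finrank F (Fil (m + 1)) ≤ Module.finrank F (Fil m) + 1
  low : ∀ m, m ≤ Module.finrank F (Fil m) + g

/-- the `j`-th power sum of the roots of a monic polynomial, by the logarithmic derivative -/
noncomputable def psum {k : Type} [Field k] (G : k[X]) (j : ℕ) : k :=
  PowerSeries.coeff j (-(PowerSeries.X * PowerSeries.derivative k (G.reverse : PowerSeries k)) *
    (G.reverse : PowerSeries k)⁻¹)

theorem finite_mon (k : Type) [Field k] [Finite k] (n : ℕ) :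
    {G : k[X] | G.Monic ∧ G.natDegree = n}.Finite := by
  refine Set.Finite.of_finite_image (f := fun G : k[X] => fun i : Fin (n + 1) => G.coeff i)
    (Set.toFinite _) ?_
  intro G hG H hH h
  ext i
  by_cases hi : i < n + 1
  · exact congrFun h ⟨i, hi⟩
  · rw [coeff_eq_zero_of_natDegree_lt (by rw [hG.2]; omega),
      coeff_eq_zero_of_natDegree_lt (by rw [hH.2]; omega)]

/-- monic polynomials of degree `n` -/
noncomputable def Mon (k : Type) [Field k] [Finite k] (n : ℕ) : Finset k[X] :=
  (finite_mon k n).toFinset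

theorem mem_Mon {k : Type} [Field k] [Finite k] {n : ℕ} {G : k[X]} :
    G ∈ Mon k n ↔ G.Monic ∧ G.natDegree = n := by
  simp [Mon]

open Classical in
/-- monic irreducible polynomials whose degree divides `ν` -/
noncomputable def Irr (k : Type) [Field k] [Finite k] (ν : ℕ) : Finset k[X] :=
  ((range (ν + 1)).biUnion (Mon k)).filter (fun P => Irreducible P ∧ P.natDegree ∣ ν)

/-- the coefficients of the `L`-function -/
noncomputable def LL {k : Type} [Field k] [Finite k] (lam : k[X] → ℂ) (n : ℕ) : ℂ :=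
  ∑ G ∈ Mon k n, lam G

/-- the coefficients of its logarithmic derivative -/
noncomputable def SS {k : Type} [Field k] [Finite k] (lam : k[X] → ℂ) (ν : ℕ) : ℂ :=
  ∑ P ∈ Irr k ν, (P.natDegree : ℂ) * lam P ^ (ν / P.natDegree)

/-- the character on monic polynomials attached to `F` -/
noncomputable def lamb (p : ℕ) [Fact p.Prime] (F G : (ZMod p)[X]) : ℂ :=
  ZMod.stdAddChar (∑ j ∈ Icc 1 F.natDegree, F.coeff j * psum G j)

end Vale.Agent.P042W
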