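import Vale.Agent.P042W.WDefs

/-! Power sums and the vanishing of the high coefficients. -/

namespace Vale.Agent.P042W

open Polynomial Finset

variable {k : Type} [Field k]

/-- logarithmic derivative series -/
noncomputable def weLD (R : PowerSeries k) : PowerSeries k :=
  -(PowerSeries.X * PowerSeries.derivative k R) * R⁻¹

theorem psum_eq_weLD (G : k[X]) (j : ℕ) :
    psum G j = PowerSeries.coeff j (weLD (G.reverse : PowerSeries k)) := rfl

theorem weLD_spec {R : PowerSeries k} (h : PowerSeries.constantCoeff R ≠ 0) :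
    weLD R * R = -(PowerSeries.X * PowerSeries.derivative k R) := by
  rw [weLD, mul_assoc, PowerSeries.inv_mul_cancel R h, mul_one]

theorem weLD_unique {R Z : PowerSeries k} (h : PowerSeries.constantCoeff R ≠ 0)
    (hZ : Z * R = -(PowerSeries.X * PowerSeries.derivative k R)) : weLD R = Z := by
  rw [weLD, ← hZ, mul_assoc, PowerSeries.mul_inv_cancel R h, mul_one]

theorem we_const {G : k[X]} (hG : G.Monic) :
    PowerSeries.constantCoeff (G.reverse : PowerSeries k) = 1 := by
  rw [Polynomial.constantCoeff_coe, coeff_zero_reverse, hG.leadingCoeff]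

theorem we_const_ne {G : k[X]} (hG : G.Monic) :
    PowerSeries.constantCoeff (G.reverse : PowerSeries k) ≠ 0 := by
  rw [we_const hG]; exact one_ne_zero

theorem psum_one (j : ℕ) : psum (1 : k[X]) j = 0 := by
  have e : (1 : k[X]).reverse = 1 := by simpa using reverse_C (1 : k)
  rw [psum, e, Polynomial.coe_one, PowerSeries.derivative_one]
  simp

theorem psum_mul {G H : k[X]} (hG : G.Monic) (hH : H.Monic) (j : ℕ) :
    psum (G * H) j = psum G j + psum H j := by
  have h1 := weLD_spec (we_const_ne hG)
  have h2 := weLD_spec (we_const_ne hH)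
  have h3 := we_const_ne (hG.mul hH)
  rw [psum_eq_weLD, psum_eq_weLD, psum_eq_weLD, ← map_add]
  congr 1
  refine weLD_unique h3 ?_
  rw [reverse_mul_of_domain, Polynomial.coe_mul, Derivation.leibniz, smul_eq_mul, smul_eq_mul]
  linear_combination (H.reverse : PowerSeries k) * h1 + (G.reverse : PowerSeries k) * h2

theorem psum_linear (β : k) (j : ℕ) (hj : 1 ≤ j) : psum (X - C β) j = β ^ j := by
  have e : ((X - C β : k[X]).reverse : PowerSeries k) = 1 - PowerSeries.C β * PowerSeries.X := by
    rw [reverse, natDegree_X_sub_C, reflect_sub, reflect_one_X, reflect_C, pow_one]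
    simp
  have h1 : (PowerSeries.mk fun i => β ^ i) * (1 - PowerSeries.C β * PowerSeries.X) = 1 := by
    ext i
    rw [mul_sub, mul_one, ← mul_assoc, map_sub]
    cases i with
    | zero => simp
    | succ i => simp [PowerSeries.coeff_succ_mul_X, PowerSeries.coeff_one, pow_succ]
  have h2 : weLD ((X - C β : k[X]).reverse : PowerSeries k) =
      (PowerSeries.mk fun i => β ^ i) - 1 := by
    refine weLD_unique (we_const_ne (monic_X_sub_C β)) ?_
    rw [e, map_sub, PowerSeries.derivative_one, Derivation.leibniz, PowerSeries.derivative_X,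
      PowerSeries.derivative_C, smul_eq_mul, smul_eq_mul]
    linear_combination h1
  rw [psum_eq_weLD, h2, map_sub, PowerSeries.coeff_mk, PowerSeries.coeff_one, if_neg (by omega),
    sub_zero]

theorem psum_map {K : Type} [Field K] (φ : k →+* K) {G : k[X]} (hG : G.Monic) (j : ℕ) :
    psum (G.map φ) j = φ (psum G j) := by
  have e : ((G.map φ).reverse : PowerSeries K) =
      PowerSeries.map φ (G.reverse : PowerSeries k) := by
    rw [reverse, reverse, natDegree_map, reflect_map, Polynomial.polynomial_map_coe]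
  have e2 : ∀ R : PowerSeries k, PowerSeries.derivative K (PowerSeries.map φ R) =
      PowerSeries.map φ (PowerSeries.derivative k R) := by
    intro R
    ext i
    simp [PowerSeries.coeff_derivative]
  have h2 : weLD ((G.map φ).reverse : PowerSeries K) =
      PowerSeries.map φ (weLD (G.reverse : PowerSeries k)) := by
    refine weLD_unique (we_const_ne (hG.map φ)) ?_
    rw [e, ← map_mul, weLD_spec (we_const_ne hG), e2, map_neg, map_mul, PowerSeries.map_X]
  rw [psum_eq_weLD, psum_eq_weLD, h2, PowerSeries.coeff_map]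

theorem psum_prod (s : Multiset k) (j : ℕ) (hj : 1 ≤ j) :
    psum (s.map (fun β => X - C β)).prod j = (s.map (fun β => β ^ j)).sum := by
  induction s using Multiset.induction_on with
  | empty => simpa using psum_one j
  | cons a s ih =>
    rw [Multiset.map_cons, Multiset.prod_cons, Multiset.map_cons, Multiset.sum_cons,
      psum_mul (monic_X_sub_C a)
        (monic_multiset_prod_of_monic s _ fun β _ => monic_X_sub_C β), ih, psum_linear a j hj]

theorem we_shift_monic {G : k[X]} (hG : G.Monic) {d : ℕ} (hd : 1 ≤ d) (hdn : d ≤ G.natDegree)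
    (b : k) : (G + C b * X ^ (G.natDegree - d)).Monic ∧
      (G + C b * X ^ (G.natDegree - d)).natDegree = G.natDegree := by
  have h1 : (C b * X ^ (G.natDegree - d) : k[X]).natDegree < G.natDegree :=
    (natDegree_C_mul_X_pow_le b _).trans_lt (by omega)
  exact ⟨hG.add_of_left (degree_lt_degree h1), natDegree_add_eq_left_of_natDegree_lt h1⟩

theorem psum_shift {G : k[X]} (hG : G.Monic) {d : ℕ} (hd : 1 ≤ d) (hdn : d ≤ G.natDegree) (b : k) :
    (∀ j, j < d → psum (G + C b * X ^ (G.natDegree - d)) j = psum G j) ∧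
      psum (G + C b * X ^ (G.natDegree - d)) d = psum G d - d * b := by
  obtain ⟨hM, hN⟩ := we_shift_monic hG hd hdn b
  have e : ((G + C b * X ^ (G.natDegree - d)).reverse : PowerSeries k) =
      (G.reverse : PowerSeries k) + PowerSeries.C b * PowerSeries.X ^ d := by
    rw [reverse, reverse, hN, reflect_add, reflect_C_mul_X_pow, revAt_le (Nat.sub_le _ _),
      Nat.sub_sub_self hdn]
    simp
  have c1 := we_const hG
  have c2 := we_const hM
  have s1 := weLD_spec (we_const_ne hG)
  simp only [psum_eq_weLD]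
  rw [e] at c2 ⊢
  generalize (G.reverse : PowerSeries k) = R at c1 c2 s1 ⊢
  have c3 : PowerSeries.constantCoeff (R * (R + PowerSeries.C b * PowerSeries.X ^ d)) = 1 := by
    rw [map_mul, c1, c2, one_mul]
  have i1 := PowerSeries.inv_mul_cancel _ (c3.trans_ne one_ne_zero)
  set I := (R * (R + PowerSeries.C b * PowerSeries.X ^ d))⁻¹ with hI
  have cI : PowerSeries.constantCoeff I = 1 := by
    rw [hI, PowerSeries.constantCoeff_inv, c3, inv_one]
  have hR0 : R ≠ 0 := fun h => by
    rw [h, map_zero] at c1
    exact zero_ne_one c1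
  have h2 : weLD (R + PowerSeries.C b * PowerSeries.X ^ d) = weLD R + PowerSeries.X ^ d *
      ((-((d : PowerSeries k) * PowerSeries.C b * R) +
        PowerSeries.C b * PowerSeries.X * PowerSeries.derivative k R) * I) := by
    refine weLD_unique (c2.trans_ne one_ne_zero) (mul_left_cancel₀ hR0 ?_)
    obtain ⟨d', rfl⟩ := Nat.exists_eq_add_of_le' hd
    rw [map_add, Derivation.leibniz, PowerSeries.derivative_C, PowerSeries.derivative_pow,
      PowerSeries.derivative_X, smul_eq_mul, smul_eq_mul, Nat.add_sub_cancel]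
    linear_combination (R + PowerSeries.C b * PowerSeries.X ^ (d' + 1)) * s1 +
      (PowerSeries.X ^ (d' + 1) * (-(((d' + 1 : ℕ) : PowerSeries k) * PowerSeries.C b * R) +
        PowerSeries.C b * PowerSeries.X * PowerSeries.derivative k R)) * i1
  rw [h2]
  refine ⟨fun j hj => ?_, ?_⟩
  · rw [map_add, PowerSeries.coeff_X_pow_mul', if_neg (by omega), add_zero]
  · rw [map_add, PowerSeries.coeff_X_pow_mul', if_pos le_rfl, Nat.sub_self,
      PowerSeries.coeff_zero_eq_constantCoeff]
    simp [c1, cI, sub_eq_add_neg]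

theorem lamb_one (p : ℕ) [Fact p.Prime] (F : (ZMod p)[X]) : lamb p F 1 = 1 := by
  simp [lamb, psum_one]

theorem lamb_mul (p : ℕ) [Fact p.Prime] (F : (ZMod p)[X]) {G H : (ZMod p)[X]} (hG : G.Monic)
    (hH : H.Monic) : lamb p F (G * H) = lamb p F G * lamb p F H := by
  simp only [lamb, psum_mul hG hH, mul_add, sum_add_distrib, AddChar.map_add_eq_mul]

theorem LL_zero [Finite k] (lam : k[X] → ℂ) (h1 : lam 1 = 1) : LL lam 0 = 1 := by
  have e : Mon k 0 = {1} := by
    ext G
    rw [mem_Mon, mem_singleton]
    exact ⟨fun h => h.1.natDegree_eq_zero.mp h.2, fun h => h ▸ ⟨monic_one, natDegree_one⟩⟩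
  rw [LL, e, sum_singleton, h1]

theorem LL_vanish (p : ℕ) [Fact p.Prime] (F : (ZMod p)[X]) (hd : 1 ≤ F.natDegree)
    (hdp : F.natDegree < p) (n : ℕ) (hn : F.natDegree ≤ n) : LL (lamb p F) n = 0 := by
  have hF : F.coeff F.natDegree ≠ 0 := leadingCoeff_ne_zero.mpr fun h => by
    rw [h, natDegree_zero] at hd
    omega
  have hdz : (F.natDegree : ZMod p) ≠ 0 := fun h =>
    Nat.not_dvd_of_pos_of_lt hd hdp ((ZMod.natCast_eq_zero_iff _ _).mp h)
  have hc : ZMod.stdAddChar (-(F.coeff F.natDegree * (F.natDegree : ZMod p))) ≠ 1 := fun h => by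
    exact mul_ne_zero hF hdz (neg_eq_zero.mp (ZMod.injective_stdAddChar
      (h.trans (AddChar.map_zero_eq_one _).symm)))
  have hm : ∀ b : ZMod p, ∀ G ∈ Mon (ZMod p) n,
      G + C b * X ^ (n - F.natDegree) ∈ Mon (ZMod p) n := by
    intro b G hG
    obtain ⟨h1, rfl⟩ := mem_Mon.mp hG
    exact mem_Mon.mpr (we_shift_monic h1 hd hn b)
  have h1 : ∑ G ∈ Mon (ZMod p) n, lamb p F G *
      ZMod.stdAddChar (-(F.coeff F.natDegree * (F.natDegree : ZMod p))) = LL (lamb p F) n := by
    refine sum_nbij' (fun G => G + C (1 : ZMod p) * X ^ (n - F.natDegree))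
      (fun G => G + C (-1 : ZMod p) * X ^ (n - F.natDegree)) (hm 1) (hm (-1))
      (fun G _ => ?_) (fun G _ => ?_) fun G hG => ?_
    · rw [map_neg, neg_mul, add_neg_cancel_right]
    · rw [map_neg, neg_mul, neg_add_cancel_right]
    · obtain ⟨h2, rfl⟩ := mem_Mon.mp hG
      obtain ⟨h3, h4⟩ := psum_shift h2 hd hn 1
      have h5 : ∑ j ∈ Icc 1 F.natDegree,
          F.coeff j * psum (G + C 1 * X ^ (G.natDegree - F.natDegree)) j =
          ∑ j ∈ Icc 1 F.natDegree, F.coeff j * psum G j +
            -(F.coeff F.natDegree * (F.natDegree : ZMod p)) := by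
        rw [← Ico_insert_right hd, sum_insert right_notMem_Ico,
          sum_insert right_notMem_Ico, h4,
          sum_congr rfl fun j hj => by rw [h3 j (mem_Ico.mp hj).2]]
        ring
      unfold lamb
      rw [h5, AddChar.map_add_eq_mul]
  rw [← sum_mul] at h1
  by_contra h0
  exact hc ((mul_eq_left₀ h0).mp h1)

end Vale.Agent.P042W
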