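import Vale.Agent.P042W.WDefs

/-! The Euler product, in logarithmic form. -/

namespace Vale.Agent.P042W

open Polynomial Finset

open Classical in
/-- monic irreducible polynomials of degree at most `N` -/
noncomputable def IrrLe (k : Type) [Field k] [Finite k] (N : ℕ) : Finset k[X] :=
  ((range (N + 1)).biUnion (Mon k)).filter (fun P => Irreducible P)

theorem mem_IrrLe {k : Type} [Field k] [Finite k] {N : ℕ} {P : k[X]} :
    P ∈ IrrLe k N ↔ P.Monic ∧ P.natDegree ≤ N ∧ Irreducible P := by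
  classical
  simp only [IrrLe, mem_filter, mem_biUnion, mem_range, mem_Mon]
  constructor
  · rintro ⟨⟨a, ha, hm, hd⟩, hi⟩
    exact ⟨hm, by omega, hi⟩
  · rintro ⟨hm, hd, hi⟩
    exact ⟨⟨P.natDegree, by omega, hm, rfl⟩, hi⟩

theorem mem_Irr' {k : Type} [Field k] [Finite k] {ν : ℕ} {P : k[X]} :
    P ∈ Irr k ν ↔ P.Monic ∧ P.natDegree ≤ ν ∧ Irreducible P ∧ P.natDegree ∣ ν := by
  classical
  simp only [Irr, mem_filter, mem_biUnion, mem_range, mem_Mon]
  constructor
  · rintro ⟨⟨a, ha, hm, hd⟩, hi⟩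
    exact ⟨hm, by omega, hi⟩
  · rintro ⟨hm, hd, hi⟩
    exact ⟨⟨P.natDegree, by omega, hm, rfl⟩, hi⟩

open Classical in
theorem pow_dvd_iff_count {k : Type} [Field k] {P G : k[X]} (hP : Irreducible P) (hm : P.Monic)
    (hG : G ≠ 0) (j : ℕ) :
    P ^ j ∣ G ↔ j ≤ Multiset.count P (UniqueFactorizationMonoid.normalizedFactors G) := by
  rw [pow_dvd_iff_le_emultiplicity,
    UniqueFactorizationMonoid.emultiplicity_eq_count_normalizedFactors hP hG,
    hm.normalize_eq_self, Nat.cast_le]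

open Classical in
theorem deg_eq_sum {k : Type} [Field k] [Finite k] {G : k[X]} (hG : G.Monic) :
    G.natDegree = ∑ P ∈ IrrLe k G.natDegree, ∑ j ∈ Icc 1 G.natDegree,
      if P ^ j ∣ G then P.natDegree else 0 := by
  have hG0 : G ≠ 0 := hG.ne_zero
  set s := UniqueFactorizationMonoid.normalizedFactors G with hs
  have hprod : s.prod = G := by
    rw [hs, UniqueFactorizationMonoid.prod_normalizedFactors_eq hG0, hG.normalize_eq_self]
  have hmem : ∀ P ∈ s, P ∈ IrrLe k G.natDegree := by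
    intro P hP
    have hi := UniqueFactorizationMonoid.irreducible_of_normalized_factor P hP
    have hn := UniqueFactorizationMonoid.normalize_normalized_factor P hP
    have hd := UniqueFactorizationMonoid.dvd_of_mem_normalizedFactors hP
    refine mem_IrrLe.2 ⟨?_, natDegree_le_of_dvd hd hG0, hi⟩
    rw [← hn]
    exact monic_normalize hi.ne_zero
  have h1 : G.natDegree = (s.map natDegree).sum := by
    rw [← natDegree_multiset_prod_of_monic s (fun P hP => (mem_IrrLe.1 (hmem P hP)).1), hprod]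
  have h2 : (s.map natDegree).sum =
      ∑ P ∈ IrrLe k G.natDegree, Multiset.count P s * P.natDegree := by
    rw [Finset.sum_multiset_map_count]
    simp only [smul_eq_mul]
    refine sum_subset (fun P hP => hmem P (Multiset.mem_toFinset.1 hP)) ?_
    intro P _ hP
    rw [Multiset.mem_toFinset] at hP
    rw [Multiset.count_eq_zero_of_notMem hP, zero_mul]
  refine h1.trans (h2.trans (sum_congr rfl ?_))
  intro P hP
  obtain ⟨hm, _, hi⟩ := mem_IrrLe.1 hP
  have hc : Multiset.count P s ≤ G.natDegree := by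
    have hd : P ^ Multiset.count P s ∣ G := (pow_dvd_iff_count hi hm hG0 _).2 le_rfl
    have h3 := natDegree_le_of_dvd hd hG0
    rw [hm.natDegree_pow] at h3
    have h4 : 0 < P.natDegree := hi.natDegree_pos
    nlinarith
  rw [← sum_filter, sum_const, smul_eq_mul]
  have : (Icc 1 G.natDegree).filter (fun j => P ^ j ∣ G) = Icc 1 (Multiset.count P s) := by
    ext j
    rw [mem_filter, mem_Icc, mem_Icc, pow_dvd_iff_count hi hm hG0, ← hs]
    constructor
    · rintro ⟨⟨a, _⟩, b⟩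
      exact ⟨a, b⟩
    · rintro ⟨a, b⟩
      exact ⟨⟨a, b.trans hc⟩, b⟩
  rw [this, Nat.card_Icc]
  simp

theorem lam_pow {k : Type} [Field k] (lam : k[X] → ℂ) (h1 : lam 1 = 1)
    (hm : ∀ G H : k[X], G.Monic → H.Monic → lam (G * H) = lam G * lam H) {P : k[X]}
    (hP : P.Monic) (j : ℕ) : lam (P ^ j) = lam P ^ j := by
  induction j with
  | zero => simp [h1]
  | succ j ih => rw [pow_succ, hm _ _ (hP.pow j) hP, ih, pow_succ]

open Classical in
theorem sum_dvd_eq {k : Type} [Field k] [Finite k] (lam : k[X] → ℂ)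
    (hm : ∀ G H : k[X], G.Monic → H.Monic → lam (G * H) = lam G * lam H) {Q : k[X]}
    (hQ : Q.Monic) (n : ℕ) :
    (∑ G ∈ Mon k n, if Q ∣ G then lam G else 0) =
      if Q.natDegree ≤ n then lam Q * LL lam (n - Q.natDegree) else 0 := by
  split_ifs with h
  · rw [← sum_filter, LL, mul_sum]
    symm
    refine sum_bij (fun H _ => Q * H) ?_ ?_ ?_ ?_
    · intro H hH
      obtain ⟨h1, h2⟩ := mem_Mon.1 hH
      refine mem_filter.2 ⟨mem_Mon.2 ⟨hQ.mul h1, ?_⟩, dvd_mul_right _ _⟩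
      rw [hQ.natDegree_mul h1, h2]
      omega
    · intro H _ H' _ he
      exact mul_left_cancel₀ hQ.ne_zero he
    · intro G hG
      obtain ⟨hG1, H, rfl⟩ := mem_filter.1 hG
      obtain ⟨h1, h2⟩ := mem_Mon.1 hG1
      have hH : H.Monic := hQ.of_mul_monic_left h1
      refine ⟨H, mem_Mon.2 ⟨hH, ?_⟩, rfl⟩
      rw [hQ.natDegree_mul hH] at h2
      omega
    · intro H hH
      exact (hm _ _ hQ (mem_Mon.1 hH).1).symm
  · refine sum_eq_zero ?_
    intro G hG
    obtain ⟨h1, h2⟩ := mem_Mon.1 hG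
    rw [if_neg]
    intro hd
    have := natDegree_le_of_dvd hd h1.ne_zero
    omega

theorem LL_rec {k : Type} [Field k] [Finite k] (lam : k[X] → ℂ) (h1 : lam 1 = 1)
    (hm : ∀ G H : k[X], G.Monic → H.Monic → lam (G * H) = lam G * lam H) (n : ℕ) :
    (n : ℂ) * LL lam n = ∑ ν ∈ Icc 1 n, SS lam ν * LL lam (n - ν) := by
  classical
  have hL : (n : ℂ) * LL lam n = ∑ P ∈ IrrLe k n, ∑ j ∈ Icc 1 n,
      (P.natDegree : ℂ) * ∑ G ∈ Mon k n, if P ^ j ∣ G then lam G else 0 := by
    rw [LL, mul_sum]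
    simp only [mul_sum]
    symm
    rw [sum_congr rfl (fun P _ => sum_comm), sum_comm]
    refine sum_congr rfl ?_
    intro G hG
    obtain ⟨hG1, hG2⟩ := mem_Mon.1 hG
    have := deg_eq_sum hG1
    rw [hG2] at this
    conv_rhs => rw [this]
    push_cast
    rw [sum_mul]
    refine sum_congr rfl fun P _ => ?_
    rw [sum_mul]
    refine sum_congr rfl fun j _ => ?_
    split_ifs <;> simp
  have hR : ∑ ν ∈ Icc 1 n, SS lam ν * LL lam (n - ν) = ∑ P ∈ IrrLe k n, ∑ ν ∈ Icc 1 n,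
      if P.natDegree ∣ ν then
        (P.natDegree : ℂ) * lam P ^ (ν / P.natDegree) * LL lam (n - ν) else 0 := by
    rw [sum_comm]
    refine sum_congr rfl ?_
    intro ν hν
    obtain ⟨h2, h3⟩ := mem_Icc.1 hν
    rw [SS, sum_mul, ← sum_filter]
    refine sum_congr ?_ fun _ _ => rfl
    ext P
    rw [mem_filter, mem_Irr', mem_IrrLe]
    constructor
    · rintro ⟨a, b, c, d⟩
      exact ⟨⟨a, by omega, c⟩, d⟩
    · rintro ⟨⟨a, _, c⟩, d⟩
      exact ⟨a, Nat.le_of_dvd (by omega) d, c, d⟩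
  rw [hL, hR]
  refine sum_congr rfl ?_
  intro P hP
  obtain ⟨hPm, _, hi⟩ := mem_IrrLe.1 hP
  have hd : 0 < P.natDegree := hi.natDegree_pos
  have h2 : ∀ j ∈ Icc 1 n, ((P.natDegree : ℂ) * ∑ G ∈ Mon k n, if P ^ j ∣ G then lam G else 0) =
      if j * P.natDegree ≤ n then
        (P.natDegree : ℂ) * lam P ^ j * LL lam (n - j * P.natDegree) else 0 := by
    intro j _
    rw [sum_dvd_eq lam hm (hPm.pow j), hPm.natDegree_pow, lam_pow lam h1 hm hPm]
    split_ifs
    · ring
    · simp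
  rw [sum_congr rfl h2, ← sum_filter, ← sum_filter]
  refine sum_bij (fun j _ => j * P.natDegree) ?_ ?_ ?_ ?_
  · intro j hj
    obtain ⟨h3, h4⟩ := mem_filter.1 hj
    obtain ⟨h5, _⟩ := mem_Icc.1 h3
    exact mem_filter.2 ⟨mem_Icc.2 ⟨Nat.mul_pos h5 hd, h4⟩, dvd_mul_left _ _⟩
  · intro j _ j' _ he
    exact Nat.eq_of_mul_eq_mul_right hd he
  · intro ν hν
    obtain ⟨h3, j, rfl⟩ := mem_filter.1 hν
    obtain ⟨h5, h6⟩ := mem_Icc.1 h3
    have h7 : 1 ≤ j := by
      rcases Nat.eq_zero_or_pos j with h | h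
      · subst h
        simp at h5
      · exact h
    refine ⟨j, mem_filter.2 ⟨mem_Icc.2 ⟨h7, ?_⟩, by rw [mul_comm]; exact h6⟩, mul_comm _ _⟩
    nlinarith
  · intro j _
    rw [Nat.mul_div_cancel _ hd]

end Vale.Agent.P042W
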