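import Vale.Agent.P042W.WE

/-! Sums over extension fields. -/

namespace Vale.Agent.P042W

open Polynomial Finset

open IntermediateField in
theorem wg_trace_gen {k L : Type} [Field k] [Field L] [Algebra k L] [Algebra.IsSeparable k L]
    (pb : PowerBasis k L) (j : ℕ) (hj : 1 ≤ j) :
    Algebra.trace k L (pb.gen ^ j) = psum (minpoly k pb.gen) j := by
  classical
  have := pb.finite
  have hm := minpoly.monic pb.isIntegral_gen
  apply (algebraMap k (AlgebraicClosure k)).injective
  rw [trace_eq_sum_embeddings (AlgebraicClosure k), ← psum_map _ hm,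
    (IsAlgClosed.splits _).eq_prod_roots_of_monic (hm.map (algebraMap k (AlgebraicClosure k))),
    psum_prod _ j hj,
    Fintype.sum_equiv pb.liftEquiv' _ (fun y => (y : AlgebraicClosure k) ^ j) fun σ => by
      rw [PowerBasis.liftEquiv'_apply_coe, map_pow],
    Finset.sum_mem_multiset _ _ (fun y => y ^ j) fun _ => rfl, Finset.sum_eq_multiset_sum,
    Multiset.toFinset_val, Multiset.dedup_eq_self.mpr
      (nodup_roots ((separable_map _).mpr (Algebra.IsSeparable.isSeparable k pb.gen)))]

open IntermediateField in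
theorem trace_pow_eq (p : ℕ) [Fact p.Prime] {K : Type} [Field K] [Fintype K]
    [Algebra (ZMod p) K] (x : K) (j : ℕ) (hj : 1 ≤ j) :
    Algebra.trace (ZMod p) K (x ^ j) =
      ((Module.finrank (ZMod p) K / (minpoly (ZMod p) x).natDegree : ℕ) : ZMod p) *
        psum (minpoly (ZMod p) x) j := by
  have hx : IsIntegral (ZMod p) x := .of_finite _ x
  have h1 := wg_trace_gen (adjoin.powerBasis hx) j hj
  rw [adjoin.powerBasis_gen hx, minpoly_gen] at h1
  have h2 : Module.finrank (ZMod p) K / (minpoly (ZMod p) x).natDegree =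
      Module.finrank (ZMod p)⟮x⟯ K := by
    rw [← Module.finrank_mul_finrank (ZMod p) (ZMod p)⟮x⟯ K, adjoin.finrank hx,
      Nat.mul_div_cancel_left _ (minpoly.natDegree_pos hx)]
  have h3 : x ^ j = algebraMap (ZMod p)⟮x⟯ K (AdjoinSimple.gen (ZMod p) x ^ j) := by
    rw [map_pow, AdjoinSimple.algebraMap_gen]
  rw [h2, ← h1, ← Algebra.trace_trace (S := (ZMod p)⟮x⟯), h3, Algebra.trace_algebraMap,
    LinearMap.map_smul_of_tower, nsmul_eq_mul]

theorem wg_char (p : ℕ) [Fact p.Prime] {K : Type} [Field K] [Fintype K]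
    [Algebra (ZMod p) K] (F : (ZMod p)[X]) (h0 : F.coeff 0 = 0) (x : K) :
    ZMod.stdAddChar (Algebra.trace (ZMod p) K (aeval x F)) =
      lamb p F (minpoly (ZMod p) x) ^
        (Module.finrank (ZMod p) K / (minpoly (ZMod p) x).natDegree) := by
  rw [lamb, ← AddChar.map_nsmul_eq_pow]
  congr 1
  rw [aeval_eq_sum_range, map_sum, nsmul_eq_mul, Finset.mul_sum, Finset.range_eq_Ico,
    Finset.sum_eq_sum_Ico_succ_bot (Nat.succ_pos _), h0, zero_smul, map_zero, zero_add]
  refine Finset.sum_congr rfl fun j hj => ?_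
  rw [map_smul, trace_pow_eq p x j (mem_Icc.mp hj).1, smul_eq_mul]
  ring

open Classical in
theorem wg_card (p : ℕ) [Fact p.Prime] {K : Type} [Field K] [Fintype K]
    [Algebra (ZMod p) K] {P : (ZMod p)[X]} (hm : P.Monic) (hi : Irreducible P)
    (hd : P.natDegree ∣ Module.finrank (ZMod p) K) :
    (univ.filter fun x : K => minpoly (ZMod p) x = P).card = P.natDegree := by
  have h1 := hi.natDegree_dvd_iff_dvd_X_pow_card_pow_sub_X.mp hd
  rw [Nat.card_eq_fintype_card, ← Module.card_eq_pow_finrank] at h1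
  have h2 : (P.map (algebraMap (ZMod p) K)).Splits :=
    Splits.of_dvd (FiniteField.splits_X_pow_card_sub_X p)
      (map_ne_zero (FiniteField.X_pow_card_sub_X_ne_zero _ Fintype.one_lt_card))
      (map_dvd (algebraMap _ K) h1)
  rw [← card_rootSet_eq_natDegree (PerfectField.separable_of_irreducible hi) h2,
    ← Set.toFinset_card]
  congr 1
  ext x
  rw [mem_filter, Set.mem_toFinset, mem_rootSet_of_ne hi.ne_zero]
  constructor
  · rintro ⟨-, rfl⟩
    exact minpoly.aeval _ x
  · exact fun hx => ⟨mem_univ _, (minpoly.eq_of_irreducible_of_monic hi hx hm).symm⟩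

theorem wg_mem {k : Type} [Field k] [Finite k] {ν : ℕ} {P : k[X]} :
    P ∈ Irr k ν ↔ (∃ n < ν + 1, P ∈ Mon k n) ∧ Irreducible P ∧ P.natDegree ∣ ν := by
  simp only [Irr, mem_filter, mem_biUnion, mem_range]

theorem sum_ext_eq (p : ℕ) [Fact p.Prime] {K : Type} [Field K] [Fintype K]
    [Algebra (ZMod p) K] (F : (ZMod p)[X]) (h0 : F.coeff 0 = 0) :
    ∑ x : K, ZMod.stdAddChar (Algebra.trace (ZMod p) K (aeval x F)) =
      SS (lamb p F) (Module.finrank (ZMod p) K) := by
  classical
  have hν : 0 < Module.finrank (ZMod p) K := Module.finrank_pos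
  simp only [wg_char p F h0]
  rw [SS, ← Finset.sum_fiberwise_of_maps_to (s := univ)
    (t := Irr (ZMod p) (Module.finrank (ZMod p) K)) (g := fun x : K => minpoly (ZMod p) x)]
  · refine Finset.sum_congr rfl fun P hP => ?_
    obtain ⟨⟨n, -, hn⟩, hi, hd⟩ := wg_mem.mp hP
    have hc := wg_card p (K := K) (mem_Mon.mp hn).1 hi hd
    rw [Finset.sum_congr rfl (g := fun _ =>
      lamb p F P ^ (Module.finrank (ZMod p) K / P.natDegree)) fun x hx => by
        rw [(mem_filter.mp hx).2], Finset.sum_const, nsmul_eq_mul]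
    congr 2
  · intro x _
    have hx : IsIntegral (ZMod p) x := .of_finite _ x
    have hd := minpoly.degree_dvd hx
    exact wg_mem.mpr ⟨⟨_, Nat.lt_succ_of_le (Nat.le_of_dvd hν hd),
      mem_Mon.mpr ⟨minpoly.monic hx, rfl⟩⟩, minpoly.irreducible hx, hd⟩

end Vale.Agent.P042W
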