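import Vale.Agent.P042W.WDefs

/-! Reciprocal roots. -/

namespace Vale.Agent.P042W

open Polynomial Finset

theorem wh_fact : ∀ (m : ℕ) (A : ℂ[X]), A.natDegree ≤ m → A.coeff 0 = 1 →
    ∃ s : Multiset ℂ, s.card ≤ m ∧ (A : PowerSeries ℂ) =
      (s.map fun α => (1 - PowerSeries.C α * PowerSeries.X : PowerSeries ℂ)).prod := by
  intro m
  induction m with
  | zero =>
    intro A hA h0
    refine ⟨0, le_rfl, ?_⟩
    rw [eq_C_of_natDegree_le_zero hA, h0]
    simp
  | succ m ih =>
    intro A hA h0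
    by_cases hd : A.natDegree ≤ m
    · obtain ⟨s, h1, h2⟩ := ih A hd h0
      exact ⟨s, h1.trans (Nat.le_succ m), h2⟩
    have hA0 : A ≠ 0 := by
      intro h
      rw [h] at h0
      simp at h0
    obtain ⟨r, hr⟩ := IsAlgClosed.exists_root A (by
      rw [degree_eq_natDegree hA0]
      exact_mod_cast (show A.natDegree ≠ 0 by omega))
    have hr0 : r ≠ 0 := by
      rintro rfl
      rw [IsRoot.def, ← coeff_zero_eq_eval_zero, h0] at hr
      exact one_ne_zero hr
    obtain ⟨B, hB⟩ := dvd_iff_isRoot.mpr hr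
    have hB0 : B ≠ 0 := by
      rintro rfl
      exact hA0 (by rw [hB, mul_zero])
    have hdeg : A.natDegree = 1 + B.natDegree := by
      rw [hB, natDegree_mul (X_sub_C_ne_zero r) hB0, natDegree_X_sub_C]
    have hc : (C (-r) * B).coeff 0 = 1 := by
      rw [← h0, hB, mul_coeff_zero, mul_coeff_zero]
      simp
    obtain ⟨s, h1, h2⟩ := ih (C (-r) * B) ((natDegree_C_mul_le _ _).trans (by omega)) hc
    refine ⟨r⁻¹ ::ₘ s, by rw [Multiset.card_cons]; omega, ?_⟩
    have e : A = (1 - C r⁻¹ * X) * (C (-r) * B) := by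
      have : C r⁻¹ * C r = (1 : ℂ[X]) := by rw [← C_mul, inv_mul_cancel₀ hr0, C_1]
      rw [hB, C_neg]
      linear_combination (-(X * B)) * this
    rw [Multiset.map_cons, Multiset.prod_cons, ← h2, e]
    simp only [Polynomial.coe_mul, Polynomial.coe_sub, Polynomial.coe_one, Polynomial.coe_C,
      Polynomial.coe_X]

theorem wh_geo (α : ℂ) : (PowerSeries.mk fun ν => if ν = 0 then 0 else α ^ ν) *
    (1 - PowerSeries.C α * PowerSeries.X : PowerSeries ℂ) = PowerSeries.C α * PowerSeries.X := by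
  ext n
  rw [mul_sub, mul_one, ← mul_assoc, map_sub]
  rcases n with _ | n
  · simp
  · rw [PowerSeries.coeff_succ_mul_X, PowerSeries.coeff_succ_mul_X, PowerSeries.coeff_mul_C,
      PowerSeries.coeff_mk, PowerSeries.coeff_mk, PowerSeries.coeff_C]
    rcases n with _ | n
    · simp
    · simp [pow_succ]

theorem wh_log (s : Multiset ℂ) :
    PowerSeries.X * PowerSeries.derivative ℂ
      (s.map fun α => (1 - PowerSeries.C α * PowerSeries.X : PowerSeries ℂ)).prod =
    -(PowerSeries.mk fun ν => if ν = 0 then 0 else (s.map (fun z => z ^ ν)).sum) *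
      (s.map fun α => (1 - PowerSeries.C α * PowerSeries.X : PowerSeries ℂ)).prod := by
  induction s using Multiset.induction_on with
  | empty =>
    have : (PowerSeries.mk fun ν => if ν = 0 then 0 else
        ((0 : Multiset ℂ).map (fun z => z ^ ν)).sum) = 0 := by
      ext n
      simp
    rw [this]
    simp
  | cons α t ih =>
    have e : (PowerSeries.mk fun ν => if ν = 0 then 0 else
        ((α ::ₘ t).map (fun z => z ^ ν)).sum) =
        (PowerSeries.mk fun ν => if ν = 0 then 0 else α ^ ν) +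
        (PowerSeries.mk fun ν => if ν = 0 then 0 else (t.map (fun z => z ^ ν)).sum) := by
      ext n
      rw [map_add, PowerSeries.coeff_mk, PowerSeries.coeff_mk, PowerSeries.coeff_mk]
      split_ifs <;> simp
    have hd : PowerSeries.derivative ℂ (1 - PowerSeries.C α * PowerSeries.X : PowerSeries ℂ) =
        -PowerSeries.C α := by
      rw [map_sub, Derivation.leibniz]
      simp
    rw [e, Multiset.map_cons, Multiset.prod_cons, Derivation.leibniz, hd, smul_eq_mul,
      smul_eq_mul]
    have hg := wh_geo α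
    generalize (t.map fun α => (1 - PowerSeries.C α * PowerSeries.X : PowerSeries ℂ)).prod = B
      at ih ⊢
    linear_combination (1 - PowerSeries.C α * PowerSeries.X) * ih + B * hg

theorem exists_roots (L S : ℕ → ℂ) (d : ℕ) (hd : 1 ≤ d) (h0 : L 0 = 1)
    (hv : ∀ n, d ≤ n → L n = 0)
    (hr : ∀ n : ℕ, (n : ℂ) * L n = ∑ ν ∈ Icc 1 n, S ν * L (n - ν)) :
    ∃ s : Multiset ℂ, s.card ≤ d - 1 ∧ ∀ ν, 1 ≤ ν → S ν = -(s.map (fun z => z ^ ν)).sum := by
  obtain ⟨A, hA⟩ : ∃ A : ℂ[X], A = ∑ n ∈ range d, monomial n (L n) := ⟨_, rfl⟩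
  have hc : ∀ n, A.coeff n = L n := by
    intro n
    rw [hA, finsetSum_coeff]
    simp only [coeff_monomial, sum_ite_eq', mem_range]
    split_ifs with h
    · rfl
    · exact (hv n (not_lt.mp h)).symm
  have hdeg : A.natDegree ≤ d - 1 := by
    rw [natDegree_le_iff_coeff_eq_zero]
    intro N hN
    rw [hc, hv N (by omega)]
  obtain ⟨s, h1, h2⟩ := wh_fact (d - 1) A hdeg (by rw [hc, h0])
  refine ⟨s, h1, ?_⟩
  have h3 := wh_log s
  rw [← h2] at h3
  have h4 : PowerSeries.X * PowerSeries.derivative ℂ (A : PowerSeries ℂ) =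
      (PowerSeries.mk fun ν => if ν = 0 then 0 else S ν) * (A : PowerSeries ℂ) := by
    ext n
    rw [PowerSeries.coeff_mul n (PowerSeries.mk _), Finset.Nat.sum_antidiagonal_eq_sum_range_succ
      (fun i j => PowerSeries.coeff i (PowerSeries.mk fun ν => if ν = 0 then 0 else S ν) *
        PowerSeries.coeff j (A : PowerSeries ℂ))]
    have e : range (n + 1) = insert 0 (Icc 1 n) := by
      ext i
      simp only [mem_range, mem_insert, mem_Icc]
      omega
    rw [Nat.succ_eq_add_one, e, sum_insert (by simp)]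
    simp only [PowerSeries.coeff_mk, if_true, zero_mul, zero_add, coeff_coe, hc]
    rw [sum_congr rfl (g := fun ν => S ν * L (n - ν)) (fun i hi => by
      rw [if_neg (by have := (mem_Icc.mp hi).1; omega)]), ← hr n]
    rcases n with _ | n
    · simp
    · rw [PowerSeries.coeff_succ_X_mul, PowerSeries.coeff_derivative, coeff_coe, hc]
      push_cast
      ring
  have hA0 : (A : PowerSeries ℂ) ≠ 0 := by
    intro h
    have := congrArg (PowerSeries.coeff 0) h
    rw [coeff_coe, hc, h0] at this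
    simp at this
  have h5 := mul_right_cancel₀ hA0 (h4.symm.trans h3)
  intro ν hν
  have := congrArg (PowerSeries.coeff ν) h5
  rwa [map_neg, PowerSeries.coeff_mk, PowerSeries.coeff_mk, if_neg (by omega),
    if_neg (by omega)] at this

open Filter Topology in
theorem wh_ces (w : ℂ) (hw : ‖w‖ ≤ 1) :
    Tendsto (fun K : ℕ => (K : ℝ)⁻¹ • ∑ κ ∈ range K, w ^ κ) atTop
      (𝓝 (if (1 : ℂ) = w then 1 else 0)) := by
  split_ifs with h
  · subst h
    simpa using (tendsto_const_nhds (x := (1 : ℂ)) (f := (atTop : Filter ℕ))).cesaro_smul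
  · have h1 : w ≠ 1 := fun h' => h h'.symm
    refine squeeze_zero_norm (a := fun K : ℕ => (K : ℝ)⁻¹ * (2 / ‖w - 1‖)) (fun K => ?_) ?_
    · rw [norm_smul, norm_inv, Real.norm_natCast, geom_sum_eq h1, norm_div]
      refine mul_le_mul_of_nonneg_left (div_le_div_of_nonneg_right ?_ (norm_nonneg _))
        (by positivity)
      refine (norm_sub_le _ _).trans ?_
      rw [norm_pow, norm_one]
      have := pow_le_one₀ (n := K) (norm_nonneg w) hw
      linarith
    · simpa using tendsto_inv_atTop_nhds_zero_nat.mul_const (2 / ‖w - 1‖)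

open Filter Topology in
theorem wh_ces' (t : Multiset ℂ) (ht : ∀ w ∈ t, ‖w‖ ≤ 1) :
    Tendsto (fun K : ℕ => (K : ℝ)⁻¹ • ∑ κ ∈ range K, (t.map (fun z => z ^ κ)).sum) atTop
      (𝓝 (t.count 1 : ℂ)) := by
  induction t using Multiset.induction_on with
  | empty => simp
  | cons w t ih =>
    have h1 := ih fun z hz => ht z (Multiset.mem_cons_of_mem hz)
    have h2 := wh_ces w (ht w (Multiset.mem_cons_self w t))
    simp only [Multiset.map_cons, Multiset.sum_cons, sum_add_distrib, smul_add,
      Multiset.count_cons]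
    have h3 := h2.add h1
    rw [add_comm (if (1 : ℂ) = w then (1 : ℂ) else 0)] at h3
    push_cast
    exact h3

theorem norm_le_of_psum (s : Multiset ℂ) (C R : ℝ) (hR : 0 < R) (κ₀ : ℕ)
    (h : ∀ κ, κ₀ ≤ κ → ‖(s.map (fun z => z ^ κ)).sum‖ ≤ C * R ^ κ) : ∀ z ∈ s, ‖z‖ ≤ R := by
  intro z hz
  by_contra hc
  obtain ⟨y, hy, hmax⟩ := s.exists_max_image (fun z => ‖z‖) (fun h0 => by
    rw [h0] at hz
    exact absurd hz (Multiset.notMem_zero z))
  have hRy : R < ‖y‖ := (not_le.mp hc).trans_le (hmax z hz)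
  have hy0 : 0 < ‖y‖ := hR.trans hRy
  have hy1 : y ≠ 0 := norm_pos_iff.mp hy0
  have h1 := wh_ces' (s.map fun z => z / y) (by
    intro w hw
    obtain ⟨x, hx, rfl⟩ := Multiset.mem_map.mp hw
    rw [norm_div, div_le_one hy0]
    exact hmax x hx)
  have h2 : Filter.Tendsto (fun κ : ℕ => ((s.map fun z => z / y).map (fun z => z ^ κ)).sum)
      Filter.atTop (nhds 0) := by
    refine squeeze_zero_norm' (a := fun κ : ℕ => C * (R / ‖y‖) ^ κ) ?_ ?_
    · filter_upwards [Filter.eventually_ge_atTop κ₀] with κ hκ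
      rw [Multiset.map_map]
      simp only [Function.comp_def, div_pow]
      rw [Multiset.sum_map_div, norm_div, norm_pow, ← mul_div_assoc]
      exact div_le_div_of_nonneg_right (h κ hκ) (by positivity)
    · simpa using (tendsto_pow_atTop_nhds_zero_of_lt_one (by positivity)
        ((div_lt_one hy0).mpr hRy)).const_mul C
  have h3 := tendsto_nhds_unique h1 h2.cesaro_smul
  have h4 : (1 : ℂ) ∈ s.map fun z => z / y := Multiset.mem_map.mpr ⟨y, hy, div_self hy1⟩
  exact (Multiset.count_ne_zero.mpr h4) (by exact_mod_cast h3)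

end Vale.Agent.P042W
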