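import Vale.Agent.P042W.WD
import Vale.Agent.P042W.WF
import Vale.Agent.P042W.WG
import Vale.Agent.P042W.WH

/-! The Weil bound for polynomial exponential sums. -/

namespace Vale.Agent.P042W

open Polynomial Finset

theorem norm_std (p : ℕ) [Fact p.Prime] (u : ZMod p) : ‖(ZMod.stdAddChar u : ℂ)‖ = 1 := by
  rw [ZMod.stdAddChar_apply]
  exact Circle.norm_coe _

theorem SS_even_le (p : ℕ) [Fact p.Prime] (F : (ZMod p)[X]) (h0 : F.coeff 0 = 0)
    (hd : 1 ≤ F.natDegree) (hdp : F.natDegree < p) (κ : ℕ)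
    (hκ : (p * F.natDegree) ^ 2 + 3 * (p * F.natDegree) + 1 ≤ κ) :
    ‖SS (lamb p F) (2 * κ)‖ ≤ 2 * (2 * (p * F.natDegree) + 1) * (p : ℝ) ^ κ := by
  have hp : p.Prime := Fact.out
  have hne : 2 * κ ≠ 0 := by omega
  letI : Fintype (GaloisField p (2 * κ)) := Fintype.ofFinite _
  have hcard : Fintype.card (GaloisField p (2 * κ)) = (p ^ κ) ^ 2 := by
    rw [← Nat.card_eq_fintype_card, GaloisField.card p _ hne, ← pow_mul, mul_comm]
  have hdeg : (F.map (algebraMap (ZMod p) (GaloisField p (2 * κ)))).natDegree = F.natDegree :=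
    natDegree_map _
  have hco : Nat.Coprime F.natDegree p :=
    (Nat.coprime_of_lt_prime (by omega) hdp hp).symm
  have hlt : κ < p ^ κ := Nat.lt_pow_self hp.one_lt
  have h1 := sum_sq_field p κ hcard (F.map (algebraMap (ZMod p) (GaloisField p (2 * κ))))
    (by rw [hdeg]; exact hd) (by rw [hdeg]; exact hco) (by rw [hdeg]; omega)
  have h2 := sum_ext_eq p (K := GaloisField p (2 * κ)) F h0
  rw [GaloisField.finrank p hne] at h2
  rw [hdeg] at h1
  rw [← h2]
  simpa only [eval_map_algebraMap] using h1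

theorem weil_zero (p : ℕ) [Fact p.Prime] (F : (ZMod p)[X]) (h0 : F.coeff 0 = 0)
    (hd : 1 ≤ F.natDegree) (hdp : F.natDegree < p) :
    ‖∑ x : ZMod p, ZMod.stdAddChar (F.eval x)‖ ≤ F.natDegree * √(p : ℝ) := by
  have hp : p.Prime := Fact.out
  have hp0 : (0 : ℝ) < p := by exact_mod_cast hp.pos
  obtain ⟨s, hs, hS⟩ := exists_roots (LL (lamb p F)) (SS (lamb p F)) F.natDegree hd
    (LL_zero _ (lamb_one p F)) (fun n hn => LL_vanish p F hd hdp n hn)
    (LL_rec _ (lamb_one p F) (fun G H hG hH => lamb_mul p F hG hH))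
  have hz := norm_le_of_psum (s.map (fun z => z ^ 2)) (2 * (2 * (p * F.natDegree) + 1)) p hp0
    ((p * F.natDegree) ^ 2 + 3 * (p * F.natDegree) + 1) (fun κ hκ => by
      have a1 := SS_even_le p F h0 hd hdp κ hκ
      rw [hS (2 * κ) (by omega), norm_neg] at a1
      rw [Multiset.map_map]
      simpa only [Function.comp_def, ← pow_mul] using a1)
  have hz' : ∀ z ∈ s, ‖z‖ ≤ √(p : ℝ) := by
    intro z hzs
    have := hz (z ^ 2) (Multiset.mem_map_of_mem _ hzs)
    rw [norm_pow] at this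
    exact Real.le_sqrt_of_sq_le this
  have h2 := sum_ext_eq p (K := ZMod p) F h0
  rw [Module.finrank_self, hS 1 le_rfl] at h2
  simp only [Algebra.trace_self, LinearMap.id_coe, id_eq, coe_aeval_eq_eval, pow_one,
    Multiset.map_id'] at h2
  rw [h2, norm_neg]
  have h3 : ‖s.sum‖ ≤ (s.map (fun z => ‖z‖)).sum := norm_multiset_sum_le s
  have h4 : (s.map (fun z => ‖z‖)).sum ≤ (s.map (fun z => ‖z‖)).card • √(p : ℝ) :=
    Multiset.sum_le_card_nsmul _ _ (fun x hx => by
      obtain ⟨z, hzs, rfl⟩ := Multiset.mem_map.1 hx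
      exact hz' z hzs)
  rw [Multiset.card_map, nsmul_eq_mul] at h4
  refine h3.trans (h4.trans (mul_le_mul_of_nonneg_right ?_ (Real.sqrt_nonneg _)))
  exact_mod_cast hs.trans (Nat.sub_le _ _)

theorem weil (p : ℕ) [Fact p.Prime] (F : (ZMod p)[X]) (hd : 1 ≤ F.natDegree)
    (hdp : F.natDegree < p) :
    ‖∑ x : ZMod p, ZMod.stdAddChar (F.eval x)‖ ≤ F.natDegree * √(p : ℝ) := by
  have hdeg : (F - C (F.coeff 0)).natDegree = F.natDegree := natDegree_sub_C
  have h1 := weil_zero p (F - C (F.coeff 0)) (by simp) (by rw [hdeg]; exact hd)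
    (by rw [hdeg]; exact hdp)
  rw [hdeg] at h1
  have h2 : ∑ x : ZMod p, ZMod.stdAddChar (F.eval x) = ZMod.stdAddChar (F.coeff 0) *
      ∑ x : ZMod p, ZMod.stdAddChar ((F - C (F.coeff 0)).eval x) := by
    rw [mul_sum]
    refine sum_congr rfl fun x _ => ?_
    rw [← AddChar.map_add_eq_mul, eval_sub, eval_C]
    congr 1
    ring
  rw [h2, norm_mul, norm_std, one_mul]
  exact h1

end Vale.Agent.P042W
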