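import Vale.Agent.P042W.Weil
import Vale.Agent.P042U.Unif
import Vale.Agent.P042U.Kloo

/-! Prime power moduli. -/

namespace Vale.Agent.P042W

open Polynomial Finset Vale.Agent.P042U

theorem pp_sqrt_le (p : ℕ) (hp : p.Prime) : √(p : ℝ) ≤ p := by
  have h1 : (1 : ℝ) ≤ p := by exact_mod_cast hp.one_le
  exact Real.sqrt_le_iff.mpr ⟨by positivity, by nlinarith⟩

theorem pp_one (k : ℕ) (G : ℤ[X]) (hG : G.natDegree ≤ k) (p : ℕ) (hp : p.Prime) (hk : k < p)
    (l : ℕ) (hl : 1 ≤ l) (hn : ¬ (p : ℤ) ∣ G.coeff l) : ‖th G p‖ ≤ k / √(p : ℝ) := by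
  haveI : Fact p.Prime := ⟨hp⟩
  have hp0 : (0 : ℝ) < p := by exact_mod_cast hp.pos
  obtain ⟨F, hF⟩ : ∃ F, F = G.map (Int.castRingHom (ZMod p)) := ⟨_, rfl⟩
  have h1 : F.natDegree ≤ k := by rw [hF]; exact natDegree_map_le.trans hG
  have h2 : l ≤ F.natDegree := by
    refine le_natDegree_of_ne_zero ?_
    rw [hF, coeff_map, eq_intCast, Ne, ZMod.intCast_zmod_eq_zero_iff_dvd]
    exact hn
  have h3 := weil p F (hl.trans h2) (h1.trans_lt hk)
  have h4 : th G p = (∑ y : ZMod p, ZMod.stdAddChar (F.eval y)) / p := by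
    rw [← av_eq_zmod p (fun y => ZMod.stdAddChar (F.eval y))]
    unfold th
    congr 1
    funext m
    rw [e_eq_std, hF, eval_intCast_map, eq_intCast]
    rfl
  have hs : 0 < √(p : ℝ) := Real.sqrt_pos.mpr hp0
  have hss : √(p : ℝ) * √(p : ℝ) = p := Real.mul_self_sqrt hp0.le
  rw [h4, norm_div, Complex.norm_natCast, div_le_div_iff₀ hp0 hs]
  have h5 : (F.natDegree : ℝ) ≤ k := by exact_mod_cast h1
  calc _ ≤ (F.natDegree * √(p : ℝ)) * √(p : ℝ) := mul_le_mul_of_nonneg_right h3 hs.le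
    _ = F.natDegree * p := by rw [mul_assoc, hss]
    _ ≤ k * p := mul_le_mul_of_nonneg_right h5 hp0.le

theorem pp_count (k : ℕ) (G : ℤ[X]) (hG : G.natDegree ≤ k) (p : ℕ) (hp : p.Prime) (hk : k < p)
    (l : ℕ) (hl : 1 ≤ l) (hn : ¬ (p : ℤ) ∣ G.coeff l) :
    ((range p).filter (fun r : ℕ => (p : ℤ) ∣ G.derivative.eval (r : ℤ))).card ≤ k := by
  classical
  haveI : Fact p.Prime := ⟨hp⟩
  obtain ⟨F, hF⟩ : ∃ F, F = G.derivative.map (Int.castRingHom (ZMod p)) := ⟨_, rfl⟩
  have h1 : F.natDegree ≤ k := by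
    rw [hF]
    exact natDegree_map_le.trans ((natDegree_derivative_le G).trans ((Nat.sub_le _ _).trans hG))
  have hlk : l ≤ k := (le_natDegree_of_ne_zero (fun h => hn (by rw [h]; exact dvd_zero _))).trans hG
  have h2 : F ≠ 0 := by
    intro h
    have h3 : F.coeff (l - 1) = 0 := by rw [h, coeff_zero]
    rw [hF, coeff_map, eq_intCast, ZMod.intCast_zmod_eq_zero_iff_dvd, coeff_derivative,
      Nat.sub_add_cancel hl] at h3
    rcases (Nat.prime_iff_prime_int.mp hp).dvd_or_dvd h3 with h4 | h4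
    · exact hn h4
    · have h5 : (p : ℤ) ∣ ((l : ℕ) : ℤ) := by
        have : ((l - 1 : ℕ) : ℤ) + 1 = l := by omega
        rw [← this]
        exact h4
      have h6 := Nat.le_of_dvd hl (Int.natCast_dvd_natCast.mp h5)
      omega
  refine le_trans ?_ (((Multiset.toFinset_card_le F.roots).trans (card_roots' F)).trans h1)
  refine card_le_card_of_injOn (fun r : ℕ => (r : ZMod p)) ?_ ?_
  · intro r hr
    simp only [coe_filter, Set.mem_setOf_eq] at hr
    simp only [mem_coe, Multiset.mem_toFinset]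
    rw [mem_roots h2, IsRoot.def, hF]
    have := eval_intCast_map (Int.castRingHom (ZMod p)) G.derivative (r : ℤ)
    rw [Int.cast_natCast] at this
    rw [this, eq_intCast, ZMod.intCast_zmod_eq_zero_iff_dvd]
    exact hr.2
  · intro r hr r' hr' h
    simp only [coe_filter, Set.mem_setOf_eq, mem_range] at hr hr'
    beta_reduce at h
    rw [ZMod.natCast_eq_natCast_iff', Nat.mod_eq_of_lt hr.1, Nat.mod_eq_of_lt hr'.1] at h
    exact h

theorem pp_two (k : ℕ) (G : ℤ[X]) (hG : G.natDegree ≤ k) (p : ℕ) (hp : p.Prime) (hk : k < p)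
    (l : ℕ) (hl : 1 ≤ l) (hn : ¬ (p : ℤ) ∣ G.coeff l) (s : ℕ) :
    ‖th G (p ^ (s + 2))‖ ≤ k / √(p : ℝ) := by
  classical
  have hp0 : (0 : ℝ) < p := by exact_mod_cast hp.pos
  obtain ⟨w, hw⟩ : ∃ w : ℤ → ℝ, w = fun m => if (p : ℤ) ∣ G.derivative.eval m then 0 else 1 :=
    ⟨_, rfl⟩
  have hiff : ∀ x y : ℤ, (p : ℤ) ∣ G.derivative.eval (p * y + x) ↔ (p : ℤ) ∣ G.derivative.eval x := by
    intro x y
    have h1 : (p : ℤ) ∣ G.derivative.eval (p * y + x) - G.derivative.eval x :=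
      dvd_trans ⟨y, by ring⟩ (sub_dvd_eval_sub _ _ _)
    exact ⟨fun h => by simpa using dvd_sub h h1, fun h => by simpa using dvd_add h1 h⟩
  have hw' : ∀ x y : ℤ, w (p * y + x) = w x := by
    intro x y
    simp only [hw, hiff]
  have hper : Function.Periodic w (p : ℤ) := by
    intro x
    rw [← hw' x 1]
    congr 1
    ring
  have h0 := stat_phase G p hp w hper (fun m hm hd => hm (by simp only [hw, if_pos hd])) s 1
    (fun hd => hp.one_lt.ne' (by exact_mod_cast Int.eq_one_of_dvd_one (Int.natCast_nonneg p) hd))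
  unfold Del at h0
  simp only [one_mul] at h0
  have h1 : th G (p ^ (s + 2)) = av (p * p ^ (s + 2)) (fun m => ((1 - w m : ℝ) : ℂ) *
      e ((G.eval m : ℤ) / ((p ^ (s + 2) : ℕ) : ℝ))) := by
    unfold th
    rw [← av_mul_of_per (per_e G (p ^ (s + 2))) p hp.pos, mul_comm (p ^ (s + 2)) p, ← sub_zero
      (av (p * p ^ (s + 2)) fun m => e ((G.eval m : ℤ) / ((p ^ (s + 2) : ℕ) : ℝ))), ← h0,
      ← av_sub]
    congr 1
    funext m
    push_cast
    ring
  rw [h1, av_split]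
  have h2 : ∀ r : ℤ, ‖av (p ^ (s + 2)) (fun y => ((1 - w (p * y + r) : ℝ) : ℂ) *
      e ((G.eval (p * y + r) : ℤ) / ((p ^ (s + 2) : ℕ) : ℝ)))‖ ≤
      if (p : ℤ) ∣ G.derivative.eval r then 1 else 0 := by
    intro r
    refine norm_av_le _ _ _ (by split_ifs <;> norm_num) fun y => ?_
    rw [norm_mul, norm_e, mul_one, hw', hw]
    beta_reduce
    split_ifs <;> simp
  have h3 := pp_count k G hG p hp hk l hl hn
  have h4 : (((range p).filter (fun r : ℕ => (p : ℤ) ∣ G.derivative.eval (r : ℤ))).card : ℝ) ≤ k := by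
    exact_mod_cast h3
  have hs : 0 < √(p : ℝ) := Real.sqrt_pos.mpr hp0
  refine le_trans ?_ (div_le_div_of_nonneg_left (Nat.cast_nonneg k) hs (pp_sqrt_le p hp))
  rw [av, norm_div, Complex.norm_natCast]
  refine div_le_div_of_nonneg_right ((norm_sum_le _ _).trans
    ((sum_le_sum fun (r : ℕ) _ => h2 (r : ℤ)).trans (le_trans (le_of_eq ?_) h4))) hp0.le
  rw [card_filter]
  push_cast
  rfl

theorem pp_big (k : ℕ) (p : ℕ) (hp : p.Prime) (hk : k < p) (s : ℕ) : ∀ G : ℤ[X],
    G.natDegree ≤ k → ∀ l : ℕ, 1 ≤ l → ¬ ((p : ℤ) ^ s ∣ G.coeff l) →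
    ‖th G (p ^ s)‖ ≤ k / √(p : ℝ) := by
  induction s with
  | zero => intro G _ l _ hn; exact absurd (by simp) hn
  | succ s ih =>
    intro G hG l hl hn
    by_cases hA : ∀ j, 1 ≤ j → (p : ℤ) ∣ G.coeff j
    · have hd : C (p : ℤ) ∣ G - C (G.coeff 0) := by
        rw [C_dvd_iff_dvd_coeff]
        intro j
        rw [coeff_sub, coeff_C]
        rcases Nat.eq_zero_or_pos j with rfl | hj
        · simp
        · rw [if_neg hj.ne', sub_zero]
          exact hA j hj
      obtain ⟨H, hH⟩ := hd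
      have hpz : (p : ℤ) ≠ 0 := by exact_mod_cast hp.ne_zero
      have hdeg : H.natDegree ≤ k := by
        have a1 : (G - C (G.coeff 0)).natDegree = G.natDegree := natDegree_sub_C
        rw [hH, natDegree_C_mul hpz] at a1
        exact a1.le.trans hG
      have hnl : ¬ ((p : ℤ) ^ s ∣ H.coeff l) := by
        intro h
        apply hn
        have a1 := congrArg (fun P : ℤ[X] => P.coeff l) hH
        simp only [coeff_sub, coeff_C, coeff_C_mul, if_neg (show l ≠ 0 by omega), sub_zero] at a1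
        rw [a1, pow_succ']
        exact mul_dvd_mul_left _ h
      have h1 := ih H hdeg l hl hnl
      have hp0 : (p : ℝ) ≠ 0 := Nat.cast_ne_zero.mpr hp.ne_zero
      have h2 : th G (p ^ (s + 1)) = e ((G.coeff 0 : ℤ) / ((p ^ (s + 1) : ℕ) : ℝ)) *
          th H (p ^ s) := by
        unfold th
        rw [← av_mul_of_per (per_e H (p ^ s)) p hp.pos, ← av_smul, ← pow_succ]
        congr 1
        funext m
        have a1 := congrArg (eval m) hH
        simp only [eval_sub, eval_mul, eval_C] at a1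
        rw [← e_add, sub_eq_iff_eq_add.1 a1]
        congr 1
        push_cast
        field_simp
        ring
      rw [h2, norm_mul, norm_e, one_mul]
      exact h1
    · push Not at hA
      obtain ⟨j, hj, hnj⟩ := hA
      rcases s with _ | s
      · rw [zero_add, pow_one]
        exact pp_one k G hG p hp hk j hj hnj
      · exact pp_two k G hG p hp hk j hj hnj s

theorem weil_pp (k : ℕ) : ∃ Cw : ℝ, 0 ≤ Cw ∧ ∀ G : ℤ[X], G.natDegree ≤ k → ∀ p : ℕ, p.Prime →
    ∀ s l : ℕ, 1 ≤ l → ¬ ((p : ℤ) ^ s ∣ G.coeff l) → ‖th G (p ^ s)‖ ≤ Cw / √(p : ℝ) := by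
  refine ⟨k, Nat.cast_nonneg k, fun G hG p hp s l hl hn => ?_⟩
  by_cases hk : k < p
  · exact pp_big k p hp hk s G hG l hl hn
  · have hp0 : (0 : ℝ) < p := by exact_mod_cast hp.pos
    have hs : 0 < √(p : ℝ) := Real.sqrt_pos.mpr hp0
    have h1 : (p : ℝ) ≤ k := by exact_mod_cast not_lt.1 hk
    refine le_trans (norm_av_le _ _ 1 zero_le_one fun m => (norm_e _).le) ?_
    rw [le_div_iff₀ hs, one_mul]
    exact (pp_sqrt_le p hp).trans h1

end Vale.Agent.P042W
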